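import Vale.Agent.P181.Z.H235.Anax

/-!
# P181, [Z]: the analysis half, constant barrier
-/

set_option autoImplicit false

namespace Vale.Agent.P181.Z.H235

open Real Vale.Agent.P181.Z.H582 Vale.Agent.P181.Z.H483 Vale.Agent.P181.H921.Z

/-- the powers of `a` used, in terms of `√a` and `a^(g/16)` -/
theorem powers {a : ℝ} (ha : 0 < a) (g : ℝ) :
    a ^ (1 + g) = √a ^ 2 * (a ^ (g / 16)) ^ 16 ∧
    a ^ (1 + g / 16) = √a ^ 2 * a ^ (g / 16) ∧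
    a ^ (1 + g / 2) = √a ^ 2 * (a ^ (g / 16)) ^ 8 ∧
    a ^ (1 / 2 + g / 8) = √a * (a ^ (g / 16)) ^ 2 ∧
    a ^ (1 + g / 8) = √a ^ 2 * (a ^ (g / 16)) ^ 2 ∧
    a ^ (1 / 2 + g / 16) = √a * a ^ (g / 16) := by
  have hq : √a ^ 2 = a := sq_sqrt ha.le
  have hp : ∀ n : ℕ, (a ^ (g / 16)) ^ n = a ^ (g / 16 * n) := fun n => by
    rw [← rpow_natCast, ← rpow_mul ha.le]
  have hs : √a = a ^ (1 / 2 : ℝ) := sqrt_eq_rpow a
  refine ⟨?_, ?_, ?_, ?_, ?_, ?_⟩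
  · rw [hq, hp, rpow_add ha, rpow_one]
    congr 2
    push_cast
    ring
  · rw [hq, rpow_add ha, rpow_one]
  · rw [hq, hp, rpow_add ha, rpow_one]
    congr 2
    push_cast
    ring
  · rw [hp, rpow_add ha, ← hs]
    congr 2
    push_cast
    ring
  · rw [hq, hp, rpow_add ha, rpow_one]
    congr 2
    push_cast
    ring
  · rw [rpow_add ha, ← hs]

theorem Lt_single {a r : ℕ} (ha : 1 ≤ a) (i : Fin r) : Pi.single i 1 ∈ Lt a r := by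
  rw [mem_Lt, Finset.sum_pi_single']
  simp [ha]

theorem Lt_swap {a r : ℕ} (i j : Fin r) : ∀ v ∈ Lt a r, (fun k => v (Equiv.swap i j k)) ∈ Lt a r := by
  intro v hv
  rw [mem_Lt] at hv ⊢
  have : ∑ k, v (Equiv.swap i j k) = ∑ k, v k := Equiv.sum_comp (Equiv.swap i j) v
  rw [this]
  exact hv

/-- the saddle point -/
theorem saddle {a k : ℕ} (ha : 1 ≤ a) {c0 : ℝ} (hc0 : 0 ≤ c0) (m : Fin (k + 2) → ℝ)
    (hm : ∀ i, 0 < m i) (hanti : Antitone m) :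
    ∃ x : Fin (k + 2) → ℝ, (∀ i, 0 < x i) ∧ Monotone x ∧
      ∀ i, mean (Lt a (k + 2)) x i = m i - c0 / x i := by
  obtain ⟨x, hx, hmono, -, hmean⟩ := H592.exists_gibbs (Lt a (k + 2)) Lt_ne
    (fun i => Lt_single ha i) Lt_swap hc0 m hm hanti
  exact ⟨x, hx, hmono, hmean⟩

/-- facts on the saddle point -/
theorem saddle_facts {a k : ℕ} (ha : 1 ≤ a) {q z C c0 : ℝ} (hq1 : 1 ≤ q) (hqq : q ^ 2 = a)
    (hC : 1 ≤ C)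
    (hnp : ∀ (a : ℕ) (x l : Fin (k + 2) → ℝ), 1 ≤ a → (∀ i, 0 < x i) →
    (∀ i, ∑ v ∈ Lt a (k + 2), (v i : ℝ) * gm (dt x v) ≤ l i) →
    ∏ i, (1 - exp (-(x i / 2)))⁻¹ ≤ C * max (a : ℝ) (∏ i, max 1 (l i / a)))
    (hCz : C ≤ z) (hlg0 : 0 ≤ log (a : ℝ))
    (hz1 : 1000 * ((k : ℝ) + 2 + 1) * (1 + log (a : ℝ)) ≤ z) (hc0 : 0 ≤ c0)
    (hc4 : c0 ≤ 4 * q * z ^ 3) {x m : Fin (k + 2) → ℝ} (hx : ∀ i, 0 < x i) (hmono : Monotone x)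
    (hmean : ∀ i, mean (Lt a (k + 2)) x i = m i - c0 / x i)
    (hm1 : q ^ 2 * z ^ 16 / (8 * ((k : ℝ) + 3)) ≤ m 1)
    (hreg : ∏ i, max 1 (m i / a) ≤ q ^ 2 * z) :
    x 1 ≤ 1 ∧ 2 ≤ x 0 * (q ^ 2 * z ^ 2) ∧ 2 ≤ x 1 * (q * z) := by
  have hnle := n_le (c := fun _ => c0) hC hnp ha hqq hCz hx hmean (fun _ => hc0) hreg
  have hx11 := x1_le' (c := fun _ => c0) hq1 hlg0 hz1 hx hmean hnle hc4 hm1
  obtain ⟨-, h2, h4⟩ := n_bounds hx hmono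
  have hx0 := hx 0
  have hx1 := hx 1
  have hz0 : 0 < z := by linarith
  have hq0 : 0 < q := by linarith
  refine ⟨hx11, ?_, ?_⟩
  · have e1 := mul_le_mul_of_nonneg_right hnle hx0.le
    linarith
  · by_contra hc
    push Not at hc
    have e1 := mul_le_mul_of_nonneg_right hnle (sq_nonneg (x 1))
    have e2 : (x 1 * (q * z)) ^ 2 < 2 ^ 2 := pow_lt_pow_left₀ hc (by positivity) (by norm_num)
    have e3 : q ^ 2 * z ^ 2 * x 1 ^ 2 = (x 1 * (q * z)) ^ 2 := by ring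
    linarith

/-- the point `θ` with the extra factor `a ^ C0` -/
theorem point {k E C0 a N t : ℕ} (ha2 : 2 ≤ a) {q z C c0 : ℝ} (hq1 : 1 ≤ q) (hqq : q ^ 2 = a)
    (hC : 1 ≤ C)
    (hnp : ∀ (a : ℕ) (x l : Fin (k + 2) → ℝ), 1 ≤ a → (∀ i, 0 < x i) →
    (∀ i, ∑ v ∈ Lt a (k + 2), (v i : ℝ) * gm (dt x v) ≤ l i) →
    ∏ i, (1 - exp (-(x i / 2)))⁻¹ ≤ C * max (a : ℝ) (∏ i, max 1 (l i / a)))
    (hCz : C ≤ z) (hz1 : 1000 * ((k : ℝ) + 2 + 1) * (1 + log (a : ℝ)) ≤ z)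
    (hzE : (100 + 4 * (((E + C0 : ℕ) : ℝ) + ((k : ℝ) + 2))) * (1 + log (a : ℝ)) ≤ z)
    (hN1 : 1 ≤ N)
    (hN : q ^ 2 * z ^ 16 / 8 ≤ N) (hN2 : (N : ℝ) ≤ (a : ℝ) ^ 2) (ht : q ^ 2 * z ^ 16 / 2 ≤ t)
    (x m : Fin (k + 2) → ℝ) (hx : ∀ i, 0 < x i) (hmono : Monotone x)
    (hc0 : 0 ≤ c0) (hc4 : c0 ≤ 4 * q * z ^ 3)
    (hmean : ∀ i, mean (Lt a (k + 2)) x i = m i - c0 / x i)
    (hm1 : q ^ 2 * z ^ 16 / (8 * ((k : ℝ) + 3)) ≤ m 1)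
    (hreg : ∏ i, max 1 (m i / a) ≤ q ^ 2 * z)
    (lam : Fin (k + 2) → ℕ)
    (hlam : ∑ i, x i * ((lam i : ℝ) - m i) ≤ x 1 * (q ^ 2 * z ^ 8))
    (J : (Fin (k + 2) → ℕ) → Prop) [DecidablePred J]
    (hJ : ∀ v, J v → ∃ j : Fin (k + 2), 1 ≤ j ∧ v j ≠ 0)
    (f : (Fin (k + 2) → ℕ) → ℝ) (P : ℝ) (hP : 0 < P) (hPE : P ≤ ((N * a + 1 : ℕ) : ℝ) ^ E)
    (h1 : ∀ θ, f θ ≤ cnt (Lt a (k + 2)) N θ)
    (h2 : ∀ w, 0 < cnt (Lt a (k + 2)) N w → ∃ θ : Fin (k + 2) → ℕ,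
        (∀ r : ℕ, ∑ i : Fin (k + 2), (if r ≤ (i : ℕ) then θ i else 0) ≤
          ∑ i : Fin (k + 2), (if r ≤ (i : ℕ) then w i else 0)) ∧
          (cnt (Lt a (k + 2)) N w : ℝ) ≤ P * f θ) :
    ∃ θ : Fin (k + 2) → ℕ, (∀ i, |x i * (m i - θ i) - c0| < q * z ^ 2) ∧
      (a : ℝ) ^ C0 * ((NTs (Lt a (k + 2)) J lam t).ncard : ℝ) ≤ f θ := by
  have haR : (2 : ℝ) ≤ a := by exact_mod_cast ha2
  have ha0 : (0 : ℝ) < a := by linarith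
  have hA : (0 : ℝ) < (a : ℝ) ^ C0 := by positivity
  have hA1 : (1 : ℝ) ≤ (a : ℝ) ^ C0 := one_le_pow₀ (by linarith)
  have hPE' : P * (a : ℝ) ^ C0 ≤ ((N * a + 1 : ℕ) : ℝ) ^ (E + C0) := by
    rw [pow_add]
    have h3 : (a : ℝ) ^ C0 ≤ ((N * a + 1 : ℕ) : ℝ) ^ C0 := by
      refine pow_le_pow_left₀ ha0.le ?_ C0
      have : a ≤ N * a + 1 := by nlinarith
      exact_mod_cast this
    exact mul_le_mul hPE h3 hA.le (by positivity)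
  obtain ⟨θ, hθ1, hθ2, -, -⟩ := anaqz (k := k) (E := E + C0) (a := a) (N := N) (t := t) ha2 hq1 hqq
    hC hnp hCz hz1 hzE hN hN2 ht x m (fun _ => c0) hx hmono hmean (fun _ => hc0) (fun _ => hc4) hm1
    hreg lam (by
      have e : dotp x lam - ∑ i, x i * m i = ∑ i, x i * ((lam i : ℝ) - m i) := by
        unfold dotp
        rw [← Finset.sum_sub_distrib]
        exact Finset.sum_congr rfl fun i _ => by ring
      rw [e]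
      exact hlam) J hJ (fun θ => f θ / (a : ℝ) ^ C0) (P * (a : ℝ) ^ C0) (by positivity) hPE'
    (fun θ => by
      rw [div_le_iff₀ hA]
      have e1 := h1 θ
      have e2 : (0 : ℝ) ≤ cnt (Lt a (k + 2)) N θ := Nat.cast_nonneg _
      nlinarith)
    (fun w hw => by
      obtain ⟨θ, hθ, hw2⟩ := h2 w hw
      refine ⟨θ, hθ, hw2.trans (le_of_eq ?_)⟩
      field_simp)
  refine ⟨θ, hθ1, ?_⟩
  rw [le_div_iff₀ hA] at hθ2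
  linarith

/-- **The analysis half.** -/
theorem ana (k E C0 : ℕ) {g : ℝ} (hg : 0 < g) (K : ℝ) (hK : 0 ≤ K) :
    ∃ a0 : ℕ, ∀ a : ℕ, a0 ≤ a → ∀ N t : ℕ, (a : ℝ) ^ (1 + g) / 8 ≤ N → (N : ℝ) ≤ (a : ℝ) ^ 2 →
    (a : ℝ) ^ (1 + g) / 2 ≤ t →
    ∀ m : Fin (k + 2) → ℝ, (∀ i, 0 < m i) → Antitone m →
      (a : ℝ) ^ (1 + g) / (8 * ((k : ℝ) + 3)) ≤ m 1 →
      ∏ i, max 1 (m i / a) ≤ (a : ℝ) ^ (1 + g / 16) →
    ∃ x : Fin (k + 2) → ℝ, (∀ i, 0 < x i) ∧ Monotone x ∧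
      (∀ i, mean (Lt a (k + 2)) x i = m i - K * (a : ℝ) ^ (1 / 2 + g / 8) / x i) ∧ x 1 ≤ 1 ∧
      2 ≤ x 0 * (a : ℝ) ^ (1 + g / 8) ∧ 2 ≤ x 1 * (a : ℝ) ^ (1 / 2 + g / 16) ∧
      ∀ lam : Fin (k + 2) → ℕ,
        ∑ i, x i * ((lam i : ℝ) - m i) ≤ x 1 * (a : ℝ) ^ (1 + g / 2) →
      ∀ (J : (Fin (k + 2) → ℕ) → Prop) [DecidablePred J],
        (∀ v, J v → ∃ j : Fin (k + 2), 1 ≤ j ∧ v j ≠ 0) →
      ∀ (f : (Fin (k + 2) → ℕ) → ℝ) (P : ℝ), 0 < P → P ≤ ((N * a + 1 : ℕ) : ℝ) ^ E →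
        (∀ θ, f θ ≤ cnt (Lt a (k + 2)) N θ) →
        (∀ w, 0 < cnt (Lt a (k + 2)) N w → ∃ θ : Fin (k + 2) → ℕ,
          (∀ r : ℕ, ∑ i : Fin (k + 2), (if r ≤ (i : ℕ) then θ i else 0) ≤
            ∑ i : Fin (k + 2), (if r ≤ (i : ℕ) then w i else 0)) ∧
            (cnt (Lt a (k + 2)) N w : ℝ) ≤ P * f θ) →
        ∃ θ : Fin (k + 2) → ℕ,
          (∀ i, |x i * (m i - θ i) - K * (a : ℝ) ^ (1 / 2 + g / 8)| < (a : ℝ) ^ (1 / 2 + g / 8)) ∧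
          (a : ℝ) ^ C0 * ((NTs (Lt a (k + 2)) J lam t).ncard : ℝ) ≤ f θ := by
  obtain ⟨C, hC1, hnp⟩ := np (k + 2)
  have hk0 : (0 : ℝ) ≤ k := Nat.cast_nonneg k
  have hE0 : (0 : ℝ) ≤ ((E + C0 : ℕ) : ℝ) := Nat.cast_nonneg _
  set K' : ℝ := 1000 * ((k : ℝ) + 2 + 1) + C + K + (100 + 4 * (((E + C0 : ℕ) : ℝ) + ((k : ℝ) + 2)))
    with hK'
  have hK'0 : 0 ≤ K' := by
    rw [hK']
    positivity
  obtain ⟨a0, ha0⟩ := ev_log K' hK'0 (show 0 < g / 16 by positivity)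
  refine ⟨max a0 2, fun a ha N t hN hN2 ht m hm hanti hm1 hreg => ?_⟩
  have ha2 : 2 ≤ a := le_trans (le_max_right _ _) ha
  have haR : (2 : ℝ) ≤ a := by exact_mod_cast ha2
  have hapos : (0 : ℝ) < a := by linarith
  have hzz := ha0 a (le_trans (le_max_left _ _) ha)
  obtain ⟨p1, p2, p3, p4, p5, p6⟩ := powers hapos g
  have hN0 : (0 : ℝ) < N := lt_of_lt_of_le (by positivity) hN
  have hN1 : 1 ≤ N := by
    have : 0 < N := by exact_mod_cast hN0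
    omega
  rw [p1] at hN ht hm1
  rw [p2] at hreg
  rw [p3, p4, p5, p6]
  have hqq : √(a : ℝ) ^ 2 = a := sq_sqrt hapos.le
  have hq1 : 1 ≤ √(a : ℝ) := one_le_sqrt.2 (by linarith)
  generalize √(a : ℝ) = q at *
  generalize (a : ℝ) ^ (g / 16) = z at *
  have hlg0 : 0 ≤ log (a : ℝ) := log_nonneg (by linarith)
  have hle : ∀ r : ℝ, r ≤ K' → r * (1 + log (a : ℝ)) ≤ z := fun r hr =>
    le_trans (mul_le_mul_of_nonneg_right hr (by linarith)) hzz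
  have hle' : ∀ r : ℝ, 0 ≤ r → r ≤ K' → r ≤ z := fun r hr0 hr =>
    le_trans (by nlinarith) (hle r hr)
  have hz1 : 1000 * ((k : ℝ) + 2 + 1) * (1 + log (a : ℝ)) ≤ z := hle _ (by
    rw [hK']
    linarith)
  have hzE : (100 + 4 * (((E + C0 : ℕ) : ℝ) + ((k : ℝ) + 2))) * (1 + log (a : ℝ)) ≤ z := hle _ (by
    rw [hK']
    linarith)
  have hCz : C ≤ z := hle' _ (by linarith) (by
    rw [hK']
    linarith)
  have hKz : K ≤ z := hle' _ hK (by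
    rw [hK']
    linarith)
  have hz0 : 0 < z := by linarith
  have hq0 : 0 < q := by linarith
  have hc0 : 0 ≤ K * (q * z ^ 2) := by positivity
  have hc4 : K * (q * z ^ 2) ≤ 4 * q * z ^ 3 := by
    have e1 : K * (q * z ^ 2) ≤ z * (q * z ^ 2) := mul_le_mul_of_nonneg_right hKz (by positivity)
    have e2 : z * (q * z ^ 2) = q * z ^ 3 := by ring
    have e3 : 0 < q * z ^ 3 := by positivity
    linarith
  obtain ⟨x, hx, hmono, hmean⟩ := saddle (le_trans (by norm_num) ha2) hc0 m hm hanti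
  obtain ⟨f1, f2, f3⟩ := saddle_facts (le_trans (by norm_num) ha2) hq1 hqq hC1 hnp hCz hlg0 hz1 hc0
    hc4 hx hmono hmean hm1 hreg
  refine ⟨x, hx, hmono, hmean, f1, f2, f3, ?_⟩
  intro lam hlam J _ hJ f P hP hPE h1 h2
  exact point ha2 hq1 hqq hC1 hnp hCz hz1 hzE hN1 hN hN2 ht x m hx hmono hc0 hc4 hmean hm1 hreg lam
    hlam J hJ f P hP hPE h1 h2

end Vale.Agent.P181.Z.H235
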