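import Vale.Agent.P181.Z.H235.Ana

/-!
# P181, [Z]: the analysis half, linear range
-/

set_option autoImplicit false

namespace Vale.Agent.P181.Z.H235

open Real Vale.Agent.P181.Z.H582 Vale.Agent.P181.Z.H483 Vale.Agent.P181.H921.Z

/-- The final comparison, linear range. -/
theorem fin_ineqL {q z lg h n x1 t lgP S es : ℝ} (hq : 1 ≤ q) (hlg : 0 ≤ lg) (hh : 2 ≤ h)
    (hz : 1000 * (h + 1) * (1 + lg) ≤ z) (hn : n ≤ q ^ 2 * z ^ 2)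
    (hx0 : 0 < x1) (h4 : 4 ≤ n * x1 ^ 2) (ht : q ^ 2 * z ^ 32 ≤ t) (hP : lgP ≤ z)
    (hS : S ≤ n * (1 + 2 * h * (1 + lg))) (hS0 : 0 ≤ S) (hes : es - 1 ≤ x1) :
    h * (q * z ^ 9) + h * (q * z ^ 8) + lgP + (es - 1) * S ≤ x1 * (t / 4) := by
  have hz1 : 1000 * (h + 1) ≤ z := by nlinarith
  have hz3 : 3000 ≤ z := by linarith
  have hzh : 1 + 2 * h * (1 + lg) ≤ z := by nlinarith
  have hz0 : 0 < z := by linarith
  have hq0 : 0 < q := by linarith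
  have e1 : 2 ≤ q * z * x1 := by
    by_contra hc
    push Not at hc
    have h5 : (q * z * x1) ^ 2 < 2 ^ 2 := by
      apply pow_lt_pow_left₀ hc (by positivity) (by norm_num)
    have h6 : n * x1 ^ 2 ≤ q ^ 2 * z ^ 2 * x1 ^ 2 := mul_le_mul_of_nonneg_right hn (by positivity)
    nlinarith
  have e2 : (es - 1) * S ≤ x1 * (q ^ 2 * z ^ 3) := by
    have h5 : S ≤ q ^ 2 * z ^ 2 * z := by
      refine hS.trans ?_
      have h7 : 0 ≤ 1 + 2 * h * (1 + lg) := by positivity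
      exact mul_le_mul hn hzh h7 (by positivity)
    calc (es - 1) * S ≤ x1 * S := mul_le_mul_of_nonneg_right hes hS0
      _ ≤ x1 * (q ^ 2 * z ^ 2 * z) := mul_le_mul_of_nonneg_left h5 hx0.le
      _ = _ := by ring
  have e3 : x1 * (q ^ 2 * z ^ 32) / 4 ≤ x1 * (t / 4) := by
    have := mul_le_mul_of_nonneg_left ht (by positivity : 0 ≤ x1 / 4)
    linarith
  set Q := x1 * (q ^ 2 * z ^ 3) with hQ
  have hQ0 : 0 < Q := by positivity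
  have e5 : h * (q * z ^ 9) + h * (q * z ^ 8) + lgP ≤ 2 * (q * z ^ 10) := by
    have h5 : h * (q * z ^ 9) + h * (q * z ^ 8) ≤ q * z ^ 10 := by
      have h7 : z ^ 8 ≤ z ^ 9 := pow_le_pow_right₀ (by linarith) (by norm_num)
      have h8 : h * (q * z ^ 8) ≤ h * (q * z ^ 9) := by gcongr
      have h9 : 2 * h * (q * z ^ 9) ≤ z * (q * z ^ 9) := by
        have : 2 * h ≤ z := by linarith
        gcongr
      calc h * (q * z ^ 9) + h * (q * z ^ 8) ≤ 2 * h * (q * z ^ 9) := by linarith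
        _ ≤ z * (q * z ^ 9) := h9
        _ = q * z ^ 10 := by ring
    have h6 : z ≤ q * z ^ 10 := by
      have h7 : z ≤ z ^ 10 := le_self_pow₀ (by linarith) (by norm_num)
      have h8 : 1 * z ^ 10 ≤ q * z ^ 10 := by gcongr
      linarith
    linarith
  have e6 : 2 * (q * z ^ 10) ≤ Q * z ^ 8 := by
    have h5 := mul_le_mul_of_nonneg_right e1 (by positivity : 0 ≤ q * z ^ 10)
    calc 2 * (q * z ^ 10) ≤ q * z * x1 * (q * z ^ 10) := h5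
      _ = Q * z ^ 8 := by rw [hQ]; ring
  have e7 : x1 * (q ^ 2 * z ^ 32) / 4 = Q * z ^ 29 / 4 := by rw [hQ]; ring
  have e8 : 1 + z ^ 8 ≤ z ^ 29 / 4 := by
    have h5 : z ^ 29 = z ^ 8 * z ^ 21 := by ring
    have h6 : (3000 : ℝ) ^ 21 ≤ z ^ 21 := pow_le_pow_left₀ (by norm_num) hz3 21
    have h7 : (1 : ℝ) ≤ z ^ 8 := one_le_pow₀ (by linarith)
    have h8 : (8 : ℝ) ≤ z ^ 21 := by linarith [show (8 : ℝ) ≤ 3000 ^ 21 by norm_num]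
    rw [h5]
    have h10 : z ^ 8 * 8 ≤ z ^ 8 * z ^ 21 := mul_le_mul_of_nonneg_left h8 (by linarith)
    linarith
  have e9 : Q * (1 + z ^ 8) ≤ Q * (z ^ 29 / 4) := mul_le_mul_of_nonneg_left e8 hQ0.le
  have e10 : Q * (1 + z ^ 8) = Q + Q * z ^ 8 := by ring
  have e11 : Q * (z ^ 29 / 4) = Q * z ^ 29 / 4 := by ring
  linarith

/-- `x_1 ≤ 1`, linear range. -/
theorem x1_leL {q z lg h n x1 m1 c1 : ℝ} (hq : 1 ≤ q) (hlg : 0 ≤ lg) (hh : 2 ≤ h)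
    (hz : 1000 * (h + 1) * (1 + lg) ≤ z) (hn : n ≤ q ^ 2 * z ^ 2)
    (hc : c1 ≤ q * z ^ 9) (hm : q ^ 2 * z ^ 32 / (8 * (h + 1)) ≤ m1)
    (hx : x1 * m1 ≤ n + c1) : x1 ≤ 1 := by
  have hz1 : 1000 * (h + 1) ≤ z := by nlinarith
  have hz3 : 3000 ≤ z := by linarith
  have hz0 : 0 < z := by linarith
  have hq0 : 0 < q := by linarith
  have h1 : q ^ 2 * z ^ 32 / (8 * (h + 1)) > 0 := by positivity
  by_contra hc1
  push Not at hc1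
  have h2 : m1 < x1 * m1 := by nlinarith
  have h3 : q ^ 2 * z ^ 31 ≤ q ^ 2 * z ^ 32 / (8 * (h + 1)) := by
    rw [le_div_iff₀ (by positivity)]
    have h4 : 8 * (h + 1) ≤ z := by linarith
    calc q ^ 2 * z ^ 31 * (8 * (h + 1)) ≤ q ^ 2 * z ^ 31 * z := by gcongr
      _ = q ^ 2 * z ^ 32 := by ring
  have h5 : n + c1 ≤ 2 * (q ^ 2 * z ^ 9) := by
    have h6 : q ≤ q ^ 2 := by nlinarith
    have h7 : q * z ^ 9 ≤ q ^ 2 * z ^ 9 := by gcongr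
    have h8 : z ^ 2 ≤ z ^ 9 := pow_le_pow_right₀ (by linarith) (by norm_num)
    have h9 : q ^ 2 * z ^ 2 ≤ q ^ 2 * z ^ 9 := by gcongr
    linarith
  have h6 : 2 * (q ^ 2 * z ^ 9) ≤ q ^ 2 * z ^ 31 := by
    have h7 : (3000 : ℝ) ^ 22 ≤ z ^ 22 := pow_le_pow_left₀ (by norm_num) hz3 22
    have h8 : (2 : ℝ) ≤ z ^ 22 := by linarith [show (2 : ℝ) ≤ 3000 ^ 22 by norm_num]
    calc 2 * (q ^ 2 * z ^ 9) ≤ z ^ 22 * (q ^ 2 * z ^ 9) := by gcongr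
      _ = q ^ 2 * z ^ 31 := by ring
  linarith

theorem smallL {n B q z D nnv : ℝ} (hq1 : 1 ≤ q) (hz0 : 1 ≤ z) (hn : nnv ≤ n)
    (hnle : n ≤ q ^ 2 * z ^ 2) (hB : 0 < B) (hlogz : log B + 38 ≤ z) (hD : q * z ^ 2 ≤ D) :
    B * exp (-(1 / (q * z) * D) + 38 * (1 / (q * z)) ^ 2 * nnv) ≤ 1 := by
  have hq0 : 0 < q := by linarith
  have hz00 : 0 < z := by linarith
  refine le_trans ?_ (small hq1 hz0 hn hnle hB hlogz)
  refine mul_le_mul_of_nonneg_left (exp_le_exp.2 ?_) hB.le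
  have : 1 / (q * z) * (q * z ^ 2) ≤ 1 / (q * z) * D :=
    mul_le_mul_of_nonneg_left hD (by positivity)
  linarith

/-- comparison, linear range -/
theorem comparL {k a t : ℕ} {q z lgP D : ℝ} (hq1 : 1 ≤ q) (hlg0 : 0 ≤ log (a : ℝ))
    (hz1 : 1000 * ((k : ℝ) + 2 + 1) * (1 + log (a : ℝ)) ≤ z) {x m c : Fin (k + 2) → ℝ}
    (hx : ∀ i, 0 < x i) (hmono : Monotone x)
    (hnle : ∏ i, (1 - exp (-(x i / 2)))⁻¹ ≤ q ^ 2 * z ^ 2)
    (hx11 : x 1 ≤ 1) (ht : q ^ 2 * z ^ 32 ≤ t) (hc4 : ∀ i, c i ≤ q * z ^ 9)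
    (hD : D = q * z ^ 8)
    (hP : lgP ≤ z) (lam : Fin (k + 2) → ℕ)
    (hlam : dotp x lam - ∑ i, x i * m i ≤ x 1 * ((t : ℝ) / 4))
    (J : (Fin (k + 2) → ℕ) → Prop) [DecidablePred J]
    (hJ : ∀ v, J v → ∃ j : Fin (k + 2), 1 ≤ j ∧ v j ≠ 0) :
    dotp x lam - ∑ i, x i * m i + ∑ i, c i + ((k + 2 : ℕ) : ℝ) * D +
      lgP + (exp (x 1 / 2) - 1) * ∑ v ∈ (Lt a (k + 2)).filter J,
        exp (-dotp x v) / (1 - exp (x 1 / 2) * exp (-dotp x v)) ≤ x 1 / 2 * t := by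
  have hS2 := s1 (a := a) (x := x) hx (L := Lt a (k + 2)) Lt_le 1 (J := J)
    (fun v _ hJv => by
      obtain ⟨j, hj1, hj⟩ := hJ v hJv
      exact ⟨j, hmono hj1, hj⟩) (σ := x 1 / 2) le_rfl
  rw [hcast] at hS2
  have hx1 := hx 1
  have e1 := fin_ineqL (t := (t : ℝ)) (lgP := lgP) (es := exp (x 1 / 2))
    (h := (k : ℝ) + 2) (lg := log (a : ℝ)) hq1 hlg0 (h_ge k) hz1 hnle hx1
    (n_bounds hx hmono).2.2 ht hP hS2
    (sum_nonneg' _ _ fun v hv => by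
      obtain ⟨j, hj1, hj⟩ := hJ v (Finset.mem_filter.1 hv).2
      exact jdot_gt hx hmono hj1 hj) (by
      have := exp_sub_one_le (s := x 1 / 2) (by linarith) (by linarith)
      linarith)
  have e2 : ∑ i, c i ≤ ((k : ℝ) + 2) * (q * z ^ 9) := by
    calc ∑ i, c i ≤ ∑ _i : Fin (k + 2), (q * z ^ 9) := Finset.sum_le_sum fun i _ => hc4 i
      _ = ((k : ℝ) + 2) * (q * z ^ 9) := by
        rw [Finset.sum_const, Finset.card_univ, Fintype.card_fin, nsmul_eq_mul, hcast]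
  rw [hcast, hD]
  linarith

/-- facts on the saddle point, linear range -/
theorem saddle_factsL {a k : ℕ} {q z c0 : ℝ} (hq1 : 1 ≤ q) (hlg0 : 0 ≤ log (a : ℝ))
    (hz1 : 1000 * ((k : ℝ) + 2 + 1) * (1 + log (a : ℝ)) ≤ z)
    (hc4 : c0 ≤ q * z ^ 9) {x m : Fin (k + 2) → ℝ} (hx : ∀ i, 0 < x i) (hmono : Monotone x)
    (hmean : ∀ i, mean (Lt a (k + 2)) x i = m i - c0 / x i)
    (hnle : ∏ i, (1 - exp (-(x i / 2)))⁻¹ ≤ q ^ 2 * z ^ 2)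
    (hm1 : q ^ 2 * z ^ 32 / (8 * ((k : ℝ) + 3)) ≤ m 1) :
    x 1 ≤ 1 ∧ 2 ≤ x 0 * (q ^ 2 * z ^ 2) ∧ 2 ≤ x 1 * (q * z) := by
  have hk0 : (0 : ℝ) ≤ k := Nat.cast_nonneg k
  have hz3 : 3000 ≤ z := by
    have e1 : 1000 * ((k : ℝ) + 2 + 1) * 1 ≤ 1000 * ((k : ℝ) + 2 + 1) * (1 + log (a : ℝ)) :=
      mul_le_mul_of_nonneg_left (by linarith) (by positivity)
    linarith
  have hz0 : 0 < z := by linarith
  have hq0 : 0 < q := by linarith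
  have hx0 := hx 0
  have hx1 := hx 1
  obtain ⟨-, h2, h4⟩ := n_bounds hx hmono
  refine ⟨?_, ?_, ?_⟩
  · have e1 := H921.Z.xe (x := x) hx (L := Lt a (k + 2)) Lt_ne 1
    have e2 : x 1 * mean (Lt a (k + 2)) x 1 ≤ ∏ i, (1 - exp (-(x i / 2)))⁻¹ :=
      le_trans e1 (sum_half_le hx Lt_le)
    rw [hmean 1, mul_sub, mul_div_cancel₀ _ (hx 1).ne'] at e2
    refine x1_leL (h := (k : ℝ) + 2) (lg := log (a : ℝ)) hq1 hlg0 (h_ge k) hz1 hnle hc4 ?_ ?_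
      (m1 := m 1)
    · have : (k : ℝ) + 2 + 1 = (k : ℝ) + 3 := by ring
      rw [this]
      exact hm1
    · linarith
  · have e1 := mul_le_mul_of_nonneg_right hnle hx0.le
    linarith
  · by_contra hc
    push Not at hc
    have e1 := mul_le_mul_of_nonneg_right hnle (sq_nonneg (x 1))
    have e2 : (x 1 * (q * z)) ^ 2 < 2 ^ 2 := pow_lt_pow_left₀ hc (by positivity) (by norm_num)
    have e3 : q ^ 2 * z ^ 2 * x 1 ^ 2 = (x 1 * (q * z)) ^ 2 := by ring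
    linarith

/-- the point `θ`, linear range -/
theorem pointL {k E C0 a N t : ℕ} (ha2 : 2 ≤ a) {q z c0 : ℝ} (hq1 : 1 ≤ q)
    (hz1 : 1000 * ((k : ℝ) + 2 + 1) * (1 + log (a : ℝ)) ≤ z)
    (hzE : (100 + 4 * (((E + C0 : ℕ) : ℝ) + ((k : ℝ) + 2))) * (1 + log (a : ℝ)) ≤ z)
    (hN1 : 1 ≤ N)
    (hN : q ^ 2 * z ^ 32 / 8 ≤ N) (hN2 : (N : ℝ) ≤ (a : ℝ) ^ 2) (ht : q ^ 2 * z ^ 32 ≤ t)
    (x m : Fin (k + 2) → ℝ) (hx : ∀ i, 0 < x i) (hmono : Monotone x)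
    (hc4 : c0 ≤ q * z ^ 9)
    (hmean : ∀ i, mean (Lt a (k + 2)) x i = m i - c0 / x i)
    (hnle : ∏ i, (1 - exp (-(x i / 2)))⁻¹ ≤ q ^ 2 * z ^ 2)
    (hm1 : q ^ 2 * z ^ 32 / (8 * ((k : ℝ) + 3)) ≤ m 1)
    (lam : Fin (k + 2) → ℕ)
    (hlam : ∑ i, x i * ((lam i : ℝ) - m i) ≤ x 1 * ((t : ℝ) / 4))
    (J : (Fin (k + 2) → ℕ) → Prop) [DecidablePred J]
    (hJ : ∀ v, J v → ∃ j : Fin (k + 2), 1 ≤ j ∧ v j ≠ 0)
    (f : (Fin (k + 2) → ℕ) → ℝ) (P : ℝ) (hP : 0 < P) (hPE : P ≤ ((N * a + 1 : ℕ) : ℝ) ^ E)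
    (h1 : ∀ θ, f θ ≤ cnt (Lt a (k + 2)) N θ)
    (h2 : ∀ w, 0 < cnt (Lt a (k + 2)) N w → ∃ θ : Fin (k + 2) → ℕ,
        (∀ r : ℕ, ∑ i : Fin (k + 2), (if r ≤ (i : ℕ) then θ i else 0) ≤
          ∑ i : Fin (k + 2), (if r ≤ (i : ℕ) then w i else 0)) ∧
          (cnt (Lt a (k + 2)) N w : ℝ) ≤ P * f θ) :
    ∃ θ : Fin (k + 2) → ℕ, (∀ i, |x i * (m i - θ i) - c0| < q * z ^ 8) ∧
      (a : ℝ) ^ C0 * ((NTs (Lt a (k + 2)) J lam t).ncard : ℝ) ≤ f θ := by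
  have haR : (2 : ℝ) ≤ a := by exact_mod_cast ha2
  have ha0 : (0 : ℝ) < a := by linarith
  have hA : (0 : ℝ) < (a : ℝ) ^ C0 := by positivity
  have hA1 : (1 : ℝ) ≤ (a : ℝ) ^ C0 := one_le_pow₀ (by linarith)
  have hlg0 : 0 ≤ log (a : ℝ) := log_nonneg (by linarith)
  have hk0 : (0 : ℝ) ≤ k := Nat.cast_nonneg k
  have hz3 : 3000 ≤ z := by
    have e1 : 1000 * ((k : ℝ) + 2 + 1) * 1 ≤ 1000 * ((k : ℝ) + 2 + 1) * (1 + log (a : ℝ)) :=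
      mul_le_mul_of_nonneg_left (by linarith) (by positivity)
    linarith
  have hz0 : 0 < z := by linarith
  have hq0 : 0 < q := by linarith
  obtain ⟨hx11, -, -⟩ := saddle_factsL hq1 hlg0 hz1 hc4 hx hmono hmean hnle hm1
  have hPE' : P * (a : ℝ) ^ C0 ≤ ((N * a + 1 : ℕ) : ℝ) ^ (E + C0) := by
    rw [pow_add]
    have h3 : (a : ℝ) ^ C0 ≤ ((N * a + 1 : ℕ) : ℝ) ^ C0 := by
      refine pow_le_pow_left₀ ha0.le ?_ C0
      have : a ≤ N * a + 1 := by nlinarith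
      exact_mod_cast this
    exact mul_le_mul hPE h3 hA.le (by positivity)
  have hP' : 0 < P * (a : ℝ) ^ C0 := by positivity
  have hlogz := logP_le (k := k) ha2 hzE hN2 hP' hPE'
  have hB : (0 : ℝ) < 2 * (P * (a : ℝ) ^ C0) * ((N * a + 1 : ℕ) : ℝ) ^ (k + 2) := by positivity
  have hqz : 0 < q * z := by positivity
  have hx0 := hx 0
  have hx1 := hx 1
  have hN16 : q ^ 2 * z ^ 16 / 8 ≤ N := by
    refine le_trans ?_ hN
    have : z ^ 16 ≤ z ^ 32 := pow_le_pow_right₀ (by linarith) (by norm_num)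
    gcongr
  have hD2 : q * z ^ 2 ≤ q * z ^ 8 := by
    have : z ^ 2 ≤ z ^ 8 := pow_le_pow_right₀ (by linarith) (by norm_num)
    gcongr
  obtain ⟨θ, hθ1, hθ2⟩ := core_x (Lt a (k + 2)) Lt_ne x hx hmono m (fun _ => c0) hmean N
    (fun θ => f θ / (a : ℝ) ^ C0) (P * (a : ℝ) ^ C0) hP'
    (fun θ => by
      rw [div_le_iff₀ hA]
      have e1 := h1 θ
      have e2 : (0 : ℝ) ≤ cnt (Lt a (k + 2)) N θ := Nat.cast_nonneg _
      nlinarith)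
    (fun w hw => by
      obtain ⟨θ, hθ, hw2⟩ := h2 w hw
      refine ⟨θ, hθ, hw2.trans (le_of_eq ?_)⟩
      field_simp)
    (1 / (q * z)) (q * z ^ 8) (by positivity) (by
      rw [div_le_iff₀ hqz]
      nlinarith) (x 0 / 2) (by linarith)
    (fun v hv => by
      have := dot_ge hx hmono v (Lt_ne v hv)
      linarith)
    (trunc hq1 hlg0 hz1 hx hmono hnle hx11 hN16) (((N * a + 1 : ℕ) : ℝ) ^ (k + 2)) (by positivity)
    (card_weights_le (Lt a (k + 2)) a N Lt_le)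
    (smallL hq1 (by linarith) (nn_le_n hx) hnle hB hlogz hD2) J (x 1 / 2) (by linarith)
    (fun v _ hv => by
      obtain ⟨j, hj1, hj⟩ := hJ v hv
      exact jdot_gt hx hmono hj1 hj)
    lam t (comparL hq1 hlg0 hz1 hx hmono hnle hx11 ht (fun _ => hc4) rfl (by linarith) lam (by
      have e : dotp x lam - ∑ i, x i * m i = ∑ i, x i * ((lam i : ℝ) - m i) := by
        unfold dotp
        rw [← Finset.sum_sub_distrib]
        exact Finset.sum_congr rfl fun i _ => by ring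
      rw [e]
      exact hlam) J hJ)
  refine ⟨θ, hθ1, ?_⟩
  rw [le_div_iff₀ hA] at hθ2
  linarith

/-- the powers of `a`, linear range -/
theorem powersL {a : ℝ} (ha : 0 < a) (s : ℝ) :
    a = (a ^ (1 / 2 - s / 2)) ^ 2 * (a ^ (s / 32)) ^ 32 ∧
    a ^ (1 / 2 - s / 4) = a ^ (1 / 2 - s / 2) * (a ^ (s / 32)) ^ 8 ∧
    a ^ (1 / 2 - s / 2 + s / 32) = a ^ (1 / 2 - s / 2) * a ^ (s / 32) ∧
    a ^ (1 - s) = (a ^ (1 / 2 - s / 2)) ^ 2 := by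
  have hp : ∀ (p : ℝ) (n : ℕ), (a ^ p) ^ n = a ^ (p * n) := fun p n => by
    rw [← rpow_natCast, ← rpow_mul ha.le]
  refine ⟨?_, ?_, ?_, ?_⟩
  · rw [hp, hp, ← rpow_add ha]
    conv_lhs => rw [← rpow_one a]
    congr 1
    push_cast
    ring
  · rw [hp, ← rpow_add ha]
    congr 1
    push_cast
    ring
  · rw [← rpow_add ha]
  · rw [hp]
    congr 1
    push_cast
    ring

/-- the bound for `n` from the refined product bound -/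
theorem n_leL {a r : ℕ} (ha : 1 ≤ a) {s n C p : ℝ} (hC : 1 ≤ C) (hp0 : 0 ≤ p)
    (hn : n ≤ C * ((a : ℝ) ^ r * p) ^ ((1 : ℝ) / ((r : ℝ) + 1)))
    (hp : p ≤ (a : ℝ) ^ (1 - ((r : ℝ) + 1) * s)) : n ≤ C * (a : ℝ) ^ (1 - s) := by
  have ha0 : (0 : ℝ) < a := by exact_mod_cast ha
  have hr : (0 : ℝ) < (r : ℝ) + 1 := by positivity
  refine hn.trans (mul_le_mul_of_nonneg_left ?_ (by linarith))
  have e1 : (a : ℝ) ^ r * p ≤ (a : ℝ) ^ (((r : ℝ) + 1) * (1 - s)) := by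
    calc (a : ℝ) ^ r * p ≤ (a : ℝ) ^ r * (a : ℝ) ^ (1 - ((r : ℝ) + 1) * s) :=
          mul_le_mul_of_nonneg_left hp (by positivity)
      _ = (a : ℝ) ^ (((r : ℝ) + 1) * (1 - s)) := by
        rw [← rpow_natCast, ← rpow_add ha0]
        congr 1
        ring
  have e2 : ((a : ℝ) ^ r * p) ^ ((1 : ℝ) / ((r : ℝ) + 1))
      ≤ ((a : ℝ) ^ (((r : ℝ) + 1) * (1 - s))) ^ ((1 : ℝ) / ((r : ℝ) + 1)) :=
    rpow_le_rpow (by positivity) e1 (by positivity)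
  refine e2.trans (le_of_eq ?_)
  rw [← rpow_mul ha0.le]
  congr 1
  field_simp

/-- **The analysis half, linear range**, from the refined product bound. -/
theorem anaL_of (k E C0 : ℕ) {s : ℝ} (hs : 0 < s) (hs4 : s < 1 / 4) (K : ℝ) (hK : 0 ≤ K)
    (hL1 : ∃ C : ℝ, 1 ≤ C ∧ ∀ (a : ℕ) (x l : Fin (k + 2) → ℝ), 1 ≤ a → (∀ i, 0 < x i) →
      (∀ i, ∑ v ∈ Lt a (k + 2), (v i : ℝ) * gm (dt x v) ≤ l i) →
      ∏ i, (1 - exp (-(x i / 2)))⁻¹ ≤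
        C * ((a : ℝ) ^ (k + 2) * ∏ i, max 1 (l i / a)) ^ ((1 : ℝ) / (((k + 2 : ℕ) : ℝ) + 1))) :
    ∃ a0 : ℕ, ∀ a : ℕ, a0 ≤ a → ∀ N t : ℕ, (a : ℝ) / 8 ≤ N → (N : ℝ) ≤ (a : ℝ) ^ 2 →
    (a : ℝ) ≤ t →
    ∀ m : Fin (k + 2) → ℝ, (∀ i, 0 < m i) → Antitone m →
      (a : ℝ) / (8 * ((k : ℝ) + 3)) ≤ m 1 →
      ∏ i, max 1 (m i / a) ≤ (a : ℝ) ^ (1 - ((k : ℝ) + 3) * s) →
    ∃ x : Fin (k + 2) → ℝ, (∀ i, 0 < x i) ∧ Monotone x ∧
      (∀ i, mean (Lt a (k + 2)) x i = m i - K * (a : ℝ) ^ (1 / 2 - s / 4) / x i) ∧ x 1 ≤ 1 ∧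
      2 ≤ x 0 * (a : ℝ) ∧ 2 ≤ x 1 * (a : ℝ) ^ (1 / 2 - s / 2 + s / 32) ∧
      ∀ lam : Fin (k + 2) → ℕ,
        ∑ i, x i * ((lam i : ℝ) - m i) ≤ x 1 * ((t : ℝ) / 4) →
      ∀ (J : (Fin (k + 2) → ℕ) → Prop) [DecidablePred J],
        (∀ v, J v → ∃ j : Fin (k + 2), 1 ≤ j ∧ v j ≠ 0) →
      ∀ (f : (Fin (k + 2) → ℕ) → ℝ) (P : ℝ), 0 < P → P ≤ ((N * a + 1 : ℕ) : ℝ) ^ E →
        (∀ θ, f θ ≤ cnt (Lt a (k + 2)) N θ) →
        (∀ w, 0 < cnt (Lt a (k + 2)) N w → ∃ θ : Fin (k + 2) → ℕ,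
          (∀ r : ℕ, ∑ i : Fin (k + 2), (if r ≤ (i : ℕ) then θ i else 0) ≤
            ∑ i : Fin (k + 2), (if r ≤ (i : ℕ) then w i else 0)) ∧
            (cnt (Lt a (k + 2)) N w : ℝ) ≤ P * f θ) →
        ∃ θ : Fin (k + 2) → ℕ,
          (∀ i, |x i * (m i - θ i) - K * (a : ℝ) ^ (1 / 2 - s / 4)| < (a : ℝ) ^ (1 / 2 - s / 4)) ∧
          (a : ℝ) ^ C0 * ((NTs (Lt a (k + 2)) J lam t).ncard : ℝ) ≤ f θ := by
  obtain ⟨C, hC1, hnp⟩ := hL1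
  have hk0 : (0 : ℝ) ≤ k := Nat.cast_nonneg k
  have hE0 : (0 : ℝ) ≤ ((E + C0 : ℕ) : ℝ) := Nat.cast_nonneg _
  set K' : ℝ := 1000 * ((k : ℝ) + 2 + 1) + C + K + (100 + 4 * (((E + C0 : ℕ) : ℝ) + ((k : ℝ) + 2)))
    with hK'
  have hK'0 : 0 ≤ K' := by
    rw [hK']
    positivity
  obtain ⟨a0, ha0⟩ := ev_log K' hK'0 (show 0 < s / 32 by positivity)
  refine ⟨max a0 2, fun a ha N t hN hN2 ht m hm hanti hm1 hreg => ?_⟩
  have ha2 : 2 ≤ a := le_trans (le_max_right _ _) ha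
  have haR : (2 : ℝ) ≤ a := by exact_mod_cast ha2
  have hapos : (0 : ℝ) < a := by linarith
  have hzz := ha0 a (le_trans (le_max_left _ _) ha)
  obtain ⟨p1, p2, p3, p4⟩ := powersL hapos s
  have hN0 : (0 : ℝ) < N := lt_of_lt_of_le (by positivity) hN
  have hN1 : 1 ≤ N := by
    have : 0 < N := by exact_mod_cast hN0
    omega
  have hq1 : 1 ≤ (a : ℝ) ^ (1 / 2 - s / 2) := one_le_rpow (by linarith) (by linarith)
  have hcard : ((k + 2 : ℕ) : ℝ) + 1 = (k : ℝ) + 3 := by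
    push_cast
    ring
  have hnL : ∀ (x : Fin (k + 2) → ℝ) (c0 : ℝ), (∀ i, 0 < x i) → 0 ≤ c0 →
      (∀ i, mean (Lt a (k + 2)) x i = m i - c0 / x i) →
      ∏ i, (1 - exp (-(x i / 2)))⁻¹ ≤ C * (a : ℝ) ^ (1 - s) := by
    intro x c0 hx hc0 hmean
    have e1 := hnp a x m (le_trans (by norm_num) ha2) hx (fun i => by
      have := hmean i
      have h3 : 0 ≤ c0 / x i := div_nonneg hc0 (hx i).le
      have h4 : ∑ v ∈ Lt a (k + 2), (v i : ℝ) * gm (dt x v) = mean (Lt a (k + 2)) x i := rfl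
      rw [h4]
      linarith)
    refine n_leL (r := k + 2) (le_trans (by norm_num) ha2) hC1 ?_ e1 ?_
    · exact Finset.prod_nonneg fun i _ => le_trans zero_le_one (le_max_left _ _)
    · rw [hcard]
      exact hreg
  rw [p4] at hnL
  rw [p2, p3]
  generalize hq : (a : ℝ) ^ (1 / 2 - s / 2) = q at *
  generalize hzd : (a : ℝ) ^ (s / 32) = z at *
  have hlg0 : 0 ≤ log (a : ℝ) := log_nonneg (by linarith)
  have hle : ∀ r : ℝ, r ≤ K' → r * (1 + log (a : ℝ)) ≤ z := fun r hr =>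
    le_trans (mul_le_mul_of_nonneg_right hr (by linarith)) hzz
  have hle' : ∀ r : ℝ, 0 ≤ r → r ≤ K' → r ≤ z := fun r hr0 hr =>
    le_trans (by nlinarith) (hle r hr)
  have hz1 : 1000 * ((k : ℝ) + 2 + 1) * (1 + log (a : ℝ)) ≤ z := hle _ (by
    rw [hK']
    linarith)
  have hzE : (100 + 4 * (((E + C0 : ℕ) : ℝ) + ((k : ℝ) + 2))) * (1 + log (a : ℝ)) ≤ z := hle _ (by
    rw [hK']
    linarith)
  have hCz : C ≤ z := hle' _ (by linarith) (by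
    rw [hK']
    linarith)
  have hKz : K ≤ z := hle' _ hK (by
    rw [hK']
    linarith)
  have hz0 : 0 < z := by linarith
  have hz11 : 1 ≤ z := by linarith
  have hq0 : 0 < q := by linarith
  have hc0 : 0 ≤ K * (q * z ^ 8) := by positivity
  have hc4 : K * (q * z ^ 8) ≤ q * z ^ 9 := by
    have e1 : K * (q * z ^ 8) ≤ z * (q * z ^ 8) := mul_le_mul_of_nonneg_right hKz (by positivity)
    have e2 : z * (q * z ^ 8) = q * z ^ 9 := by ring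
    linarith
  obtain ⟨x, hx, hmono, hmean⟩ := saddle (le_trans (by norm_num) ha2) hc0 m hm hanti
  have hnle : ∏ i, (1 - exp (-(x i / 2)))⁻¹ ≤ q ^ 2 * z ^ 2 := by
    have e1 := hnL x _ hx hc0 hmean
    have e2 : C ≤ z ^ 2 := hCz.trans (le_self_pow₀ hz11 (by norm_num))
    have e3 : C * q ^ 2 ≤ z ^ 2 * q ^ 2 := mul_le_mul_of_nonneg_right e2 (by positivity)
    linarith
  have hN' : q ^ 2 * z ^ 32 / 8 ≤ N := by
    rw [← p1]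
    exact hN
  have ht' : q ^ 2 * z ^ 32 ≤ t := by
    rw [← p1]
    exact ht
  have hm1' : q ^ 2 * z ^ 32 / (8 * ((k : ℝ) + 3)) ≤ m 1 := by
    rw [← p1]
    exact hm1
  obtain ⟨f1, f2, f3⟩ := saddle_factsL hq1 hlg0 hz1 hc4 hx hmono hmean hnle hm1'
  refine ⟨x, hx, hmono, hmean, f1, ?_, f3, ?_⟩
  · have e1 : q ^ 2 * z ^ 2 ≤ a := by
      rw [p1]
      have : z ^ 2 ≤ z ^ 32 := pow_le_pow_right₀ hz11 (by norm_num)
      gcongr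
    have e2 := mul_le_mul_of_nonneg_left e1 (hx 0).le
    linarith
  · intro lam hlam J _ hJ f P hP hPE h1 h2
    exact pointL ha2 hq1 hz1 hzE hN1 hN' hN2 ht' x m hx hmono hc4 hmean hnle hm1' lam
      hlam J hJ f P hP hPE h1 h2

end Vale.Agent.P181.Z.H235
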