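import Vale.Agent.P181.Z.H235.Ana

/-!
# P181, [QL]: the analysis half with a free parameter `z ≥ c0 (1 + log a)`
-/

set_option autoImplicit false

namespace Vale.Agent.P181.Z.H235

open Real Vale.Agent.P181.Z.H582 Vale.Agent.P181.Z.H483 Vale.Agent.P181.H921.Z

/-- **The analysis half, free `z`.** -/
theorem anaZ (k E C0 : ℕ) (K : ℝ) (hK : 0 ≤ K) :
    ∃ c0 : ℝ, 1 ≤ c0 ∧ ∀ a : ℕ, 2 ≤ a → ∀ z : ℝ, c0 * (1 + log (a : ℝ)) ≤ z →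
    ∀ N t : ℕ, (a : ℝ) * z ^ 16 / 8 ≤ N → (N : ℝ) ≤ (a : ℝ) ^ 2 → (a : ℝ) * z ^ 16 / 2 ≤ t →
    ∀ m : Fin (k + 2) → ℝ, (∀ i, 0 < m i) → Antitone m →
      (a : ℝ) * z ^ 16 / (8 * ((k : ℝ) + 3)) ≤ m 1 →
      ∏ i, max 1 (m i / a) ≤ (a : ℝ) * z →
    ∃ x : Fin (k + 2) → ℝ, (∀ i, 0 < x i) ∧ Monotone x ∧
      (∀ i, mean (Lt a (k + 2)) x i = m i - K * (√(a : ℝ) * z ^ 2) / x i) ∧ x 1 ≤ 1 ∧
      2 ≤ x 0 * ((a : ℝ) * z ^ 2) ∧ 2 ≤ x 1 * (√(a : ℝ) * z) ∧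
      ∀ lam : Fin (k + 2) → ℕ,
        ∑ i, x i * ((lam i : ℝ) - m i) ≤ x 1 * ((a : ℝ) * z ^ 8) →
      ∀ (J : (Fin (k + 2) → ℕ) → Prop) [DecidablePred J],
        (∀ v, J v → ∃ j : Fin (k + 2), 1 ≤ j ∧ v j ≠ 0) →
      ∀ (f : (Fin (k + 2) → ℕ) → ℝ) (P : ℝ), 0 < P → P ≤ ((N * a + 1 : ℕ) : ℝ) ^ E →
        (∀ θ, f θ ≤ cnt (Lt a (k + 2)) N θ) →
        (∀ w, 0 < cnt (Lt a (k + 2)) N w → ∃ θ : Fin (k + 2) → ℕ,
          (∀ r : ℕ, ∑ i : Fin (k + 2), (if r ≤ (i : ℕ) then θ i else 0) ≤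
            ∑ i : Fin (k + 2), (if r ≤ (i : ℕ) then w i else 0)) ∧
            (cnt (Lt a (k + 2)) N w : ℝ) ≤ P * f θ) →
        ∃ θ : Fin (k + 2) → ℕ,
          (∀ i, |x i * (m i - θ i) - K * (√(a : ℝ) * z ^ 2)| < √(a : ℝ) * z ^ 2) ∧
          (a : ℝ) ^ C0 * ((NTs (Lt a (k + 2)) J lam t).ncard : ℝ) ≤ f θ := by
  obtain ⟨C, hC1, hnp⟩ := np (k + 2)
  have hk0 : (0 : ℝ) ≤ k := Nat.cast_nonneg k
  have hE0 : (0 : ℝ) ≤ ((E + C0 : ℕ) : ℝ) := Nat.cast_nonneg _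
  set K' : ℝ := 1000 * ((k : ℝ) + 2 + 1) + C + K + (100 + 4 * (((E + C0 : ℕ) : ℝ) + ((k : ℝ) + 2)))
    with hK'
  have hK'1 : 1 ≤ K' := by
    rw [hK']
    have : (0 : ℝ) ≤ 1000 * ((k : ℝ) + 2 + 1) := by positivity
    have : (0 : ℝ) ≤ 4 * (((E + C0 : ℕ) : ℝ) + ((k : ℝ) + 2)) := by positivity
    linarith
  refine ⟨K', hK'1, fun a ha2 z hzz N t hN hN2 ht m hm hanti hm1 hreg => ?_⟩
  have haR : (2 : ℝ) ≤ a := by exact_mod_cast ha2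
  have hapos : (0 : ℝ) < a := by linarith
  have hlg0 : 0 ≤ log (a : ℝ) := log_nonneg (by linarith)
  have hle : ∀ r : ℝ, r ≤ K' → r * (1 + log (a : ℝ)) ≤ z := fun r hr =>
    le_trans (mul_le_mul_of_nonneg_right hr (by linarith)) hzz
  have hle' : ∀ r : ℝ, 0 ≤ r → r ≤ K' → r ≤ z := fun r hr0 hr =>
    le_trans (by nlinarith) (hle r hr)
  have hz1 : 1000 * ((k : ℝ) + 2 + 1) * (1 + log (a : ℝ)) ≤ z := hle _ (by
    rw [hK']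
    linarith)
  have hzE : (100 + 4 * (((E + C0 : ℕ) : ℝ) + ((k : ℝ) + 2))) * (1 + log (a : ℝ)) ≤ z := hle _ (by
    rw [hK']
    linarith)
  have hCz : C ≤ z := hle' _ (by linarith) (by
    rw [hK']
    linarith)
  have hKz : K ≤ z := hle' _ hK (by
    rw [hK']
    linarith)
  have hz0 : 0 < z := by linarith
  have hN0 : (0 : ℝ) < N := lt_of_lt_of_le (by positivity) hN
  have hN1 : 1 ≤ N := by
    have : 0 < N := by exact_mod_cast hN0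
    omega
  have hqq : √(a : ℝ) ^ 2 = a := sq_sqrt hapos.le
  have hq1 : 1 ≤ √(a : ℝ) := one_le_sqrt.2 (by linarith)
  generalize √(a : ℝ) = q at *
  have hq0 : 0 < q := by linarith
  have hN' : q ^ 2 * z ^ 16 / 8 ≤ N := by
    rw [hqq]
    exact hN
  have ht' : q ^ 2 * z ^ 16 / 2 ≤ t := by
    rw [hqq]
    exact ht
  have hm1' : q ^ 2 * z ^ 16 / (8 * ((k : ℝ) + 3)) ≤ m 1 := by
    rw [hqq]
    exact hm1
  have hreg' : ∏ i, max 1 (m i / a) ≤ q ^ 2 * z := by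
    rw [hqq]
    exact hreg
  have hc0 : 0 ≤ K * (q * z ^ 2) := by positivity
  have hc4 : K * (q * z ^ 2) ≤ 4 * q * z ^ 3 := by
    have e1 : K * (q * z ^ 2) ≤ z * (q * z ^ 2) := mul_le_mul_of_nonneg_right hKz (by positivity)
    have e2 : z * (q * z ^ 2) = q * z ^ 3 := by ring
    have e3 : 0 < q * z ^ 3 := by positivity
    linarith
  obtain ⟨x, hx, hmono, hmean⟩ := saddle (le_trans (by norm_num) ha2) hc0 m hm hanti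
  obtain ⟨f1, f2, f3⟩ := saddle_facts (le_trans (by norm_num) ha2) hq1 hqq hC1 hnp hCz hlg0 hz1 hc0
    hc4 hx hmono hmean hm1' hreg'
  refine ⟨x, hx, hmono, hmean, f1, ?_, f3, ?_⟩
  · rw [hqq] at f2
    exact f2
  intro lam hlam J _ hJ f P hP hPE h1 h2
  refine point ha2 hq1 hqq hC1 hnp hCz hz1 hzE hN1 hN' hN2 ht' x m hx hmono hc0 hc4 hmean hm1'
    hreg' lam ?_ J hJ f P hP hPE h1 h2
  rw [hqq]
  exact hlam

end Vale.Agent.P181.Z.H235
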