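import Vale.Agent.P181.Z.H235.Nums
import Vale.Agent.P181.Z.H483.Core
import Vale.Agent.P181.Z.H592.Min2
import Vale.Agent.P181.H921.ZS1
import Vale.Agent.P181.H921.ZNp

/-!
# P181, [Z]: the analysis half once the saddle point is given
-/

set_option autoImplicit false

namespace Vale.Agent.P181.Z.H235

open Real Vale.Agent.P181.Z.H582 Vale.Agent.P181.Z.H483 Vale.Agent.P181.H921.Z

theorem Lt_ne {a r : ℕ} : ∀ v ∈ Lt a r, v ≠ 0 := by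
  intro v hv h
  subst h
  have := (mem_Lt.1 hv).1
  simp at this

theorem Lt_le {a r : ℕ} : ∀ v ∈ Lt a r, ∀ i, v i ≤ a := by
  intro v hv i
  exact (Finset.single_le_sum (f := v) (fun _ _ => Nat.zero_le _) (Finset.mem_univ i)).trans
    (mem_Lt.1 hv).2

theorem exists_ne_of_ne {r : ℕ} {v : Fin r → ℕ} (hv : v ≠ 0) : ∃ j, v j ≠ 0 := by
  by_contra hc
  push Not at hc
  exact hv (funext hc)

/-- one factor of the product -/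
theorem two_div_le {u : ℝ} (hu : 0 < u) : 2 / u ≤ (1 - exp (-(u / 2)))⁻¹ := by
  have h1 : 1 - exp (-(u / 2)) ≤ u / 2 := by linarith [add_one_le_exp (-(u / 2))]
  have h2 : 0 < 1 - exp (-(u / 2)) := by
    have : exp (-(u / 2)) < 1 := by
      rw [exp_lt_one_iff]
      linarith
    linarith
  rw [show 2 / u = (u / 2)⁻¹ by rw [inv_div]]
  exact inv_anti₀ h2 h1

theorem one_le_fac {u : ℝ} (hu : 0 < u) : 1 ≤ (1 - exp (-(u / 2)))⁻¹ := by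
  have h2 : 0 < 1 - exp (-(u / 2)) := by
    have : exp (-(u / 2)) < 1 := by
      rw [exp_lt_one_iff]
      linarith
    linarith
  rw [one_le_inv₀ h2]
  linarith [exp_pos (-(u / 2))]

theorem np_ge {k : ℕ} {x : Fin (k + 2) → ℝ} (hx : ∀ i, 0 < x i) :
    2 / x 0 * (2 / x 1) ≤ ∏ i, (1 - exp (-(x i / 2)))⁻¹ ∧
      2 / x 0 ≤ ∏ i, (1 - exp (-(x i / 2)))⁻¹ := by
  rw [Fin.prod_univ_succ, Fin.prod_univ_succ]
  have h0 := two_div_le (hx 0)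
  have h1 := two_div_le (hx 1)
  have h00 : 0 < 2 / x 0 := div_pos two_pos (hx 0)
  have h11 : 0 < 2 / x 1 := div_pos two_pos (hx 1)
  have hr : 1 ≤ ∏ i : Fin k, (1 - exp (-(x i.succ.succ / 2)))⁻¹ :=
    Finset.one_le_prod (fun i _ => one_le_fac (hx i.succ.succ))
  have e1 : (0 : Fin (k + 1)).succ = (1 : Fin (k + 2)) := rfl
  rw [e1]
  have h2 : 2 / x 1 ≤ (1 - exp (-(x 1 / 2)))⁻¹ * ∏ i : Fin k, (1 - exp (-(x i.succ.succ / 2)))⁻¹ := by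
    calc 2 / x 1 = 2 / x 1 * 1 := (mul_one _).symm
      _ ≤ _ := mul_le_mul h1 hr (by norm_num) (le_trans h11.le h1)
  have h3 : 1 ≤ (1 - exp (-(x 1 / 2)))⁻¹ * ∏ i : Fin k, (1 - exp (-(x i.succ.succ / 2)))⁻¹ := by
    calc (1 : ℝ) = 1 * 1 := (mul_one _).symm
      _ ≤ _ := mul_le_mul (one_le_fac (hx 1)) hr (by norm_num) (le_trans h11.le h1)
  constructor
  · exact mul_le_mul h0 h2 h11.le (le_trans h00.le h0)
  · calc 2 / x 0 = 2 / x 0 * 1 := (mul_one _).symm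
      _ ≤ _ := mul_le_mul h0 h3 (by norm_num) (le_trans h00.le h0)


theorem h_ge (k : ℕ) : (2 : ℝ) ≤ (k : ℝ) + 2 := by
  have hk0 : (0 : ℝ) ≤ k := Nat.cast_nonneg k
  linarith

theorem hcast (k : ℕ) : ((k + 2 : ℕ) : ℝ) = (k : ℝ) + 2 := by push_cast; ring

/-- bounds for `n` -/
theorem n_bounds {k : ℕ} {x : Fin (k + 2) → ℝ} (hx : ∀ i, 0 < x i) (hmono : Monotone x) :
    0 < (∏ i, (1 - exp (-(x i / 2)))⁻¹) ∧ 2 ≤ (∏ i, (1 - exp (-(x i / 2)))⁻¹) * x 0 ∧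
      4 ≤ (∏ i, (1 - exp (-(x i / 2)))⁻¹) * x 1 ^ 2 := by
  obtain ⟨hnp2, hnp1⟩ := np_ge hx
  set n : ℝ := ∏ i, (1 - exp (-(x i / 2)))⁻¹ with hn
  have hn0 : 0 < n := by
    refine Finset.prod_pos fun i _ => ?_
    exact lt_of_lt_of_le one_pos (one_le_fac (hx i))
  have hx0 := hx 0
  have hx1 := hx 1
  have hx01 : x 0 ≤ x 1 := hmono (by simp)
  have h2n : 2 ≤ n * x 0 := by
    rw [div_le_iff₀ hx0] at hnp1
    exact hnp1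
  refine ⟨hn0, h2n, ?_⟩
  have e1 : 4 ≤ n * (x 0 * x 1) := by
    have e2 : 2 / x 0 * (2 / x 1) = 4 / (x 0 * x 1) := by
      field_simp
      norm_num
    rw [e2, div_le_iff₀ (mul_pos hx0 hx1)] at hnp2
    exact hnp2
  have e3 : x 0 * x 1 ≤ x 1 ^ 2 := by nlinarith
  have e4 := mul_le_mul_of_nonneg_left e3 hn0.le
  linarith

theorem n_le {k : ℕ} {C : ℝ} (hC : 1 ≤ C)
    (hnp : ∀ (a : ℕ) (x l : Fin (k + 2) → ℝ), 1 ≤ a → (∀ i, 0 < x i) →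
    (∀ i, ∑ v ∈ Lt a (k + 2), (v i : ℝ) * gm (dt x v) ≤ l i) →
    ∏ i, (1 - exp (-(x i / 2)))⁻¹ ≤ C * max (a : ℝ) (∏ i, max 1 (l i / a)))
    {a : ℕ} (ha : 1 ≤ a) {q z : ℝ} (hqq : q ^ 2 = a) (hCz : C ≤ z)
    {x m c : Fin (k + 2) → ℝ} (hx : ∀ i, 0 < x i)
    (hmean : ∀ i, mean (Lt a (k + 2)) x i = m i - c i / x i) (hc0 : ∀ i, 0 ≤ c i)
    (hreg : ∏ i, max 1 (m i / a) ≤ q ^ 2 * z) :
    ∏ i, (1 - exp (-(x i / 2)))⁻¹ ≤ q ^ 2 * z ^ 2 := by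
  have e1 := hnp a x m ha hx (fun i => by
    have := hmean i
    have h3 : 0 ≤ c i / x i := div_nonneg (hc0 i) (hx i).le
    have h4 : ∑ v ∈ Lt a (k + 2), (v i : ℝ) * gm (dt x v) = mean (Lt a (k + 2)) x i := rfl
    rw [h4]
    linarith)
  have hapos : (0 : ℝ) < a := by exact_mod_cast ha
  have e2 : max (a : ℝ) (∏ i, max 1 (m i / a)) ≤ q ^ 2 * z := by
    apply max_le _ hreg
    rw [← hqq]
    have : 0 ≤ q ^ 2 := by positivity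
    nlinarith
  calc _ ≤ C * max (a : ℝ) (∏ i, max 1 (m i / a)) := e1
    _ ≤ z * (q ^ 2 * z) := mul_le_mul hCz e2 (le_trans hapos.le (le_max_left _ _)) (by linarith)
    _ = q ^ 2 * z ^ 2 := by ring

theorem dot_ge {k : ℕ} {x : Fin (k + 2) → ℝ} (hx : ∀ i, 0 < x i) (hmono : Monotone x)
    (v : Fin (k + 2) → ℕ) (hv : v ≠ 0) : x 0 ≤ dotp x v := by
  obtain ⟨j, hj⟩ := exists_ne_of_ne hv
  have e1 := mul_le_dotp x hx v j
  have e2 : (1 : ℝ) ≤ v j := by exact_mod_cast Nat.one_le_iff_ne_zero.2 hj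
  have e3 : x 0 ≤ x j := hmono (Fin.zero_le j)
  nlinarith [hx j]

theorem jdot_gt {k : ℕ} {x : Fin (k + 2) → ℝ} (hx : ∀ i, 0 < x i) (hmono : Monotone x)
    {v : Fin (k + 2) → ℕ} {j : Fin (k + 2)} (hj1 : 1 ≤ j) (hj : v j ≠ 0) :
    x 1 / 2 < dotp x v := by
  have e1 := mul_le_dotp x hx v j
  have e2 : (1 : ℝ) ≤ v j := by exact_mod_cast Nat.one_le_iff_ne_zero.2 hj
  have e3 : x 1 ≤ x j := hmono hj1
  have := hx 1
  nlinarith [hx j]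

theorem nn_le_n {k a : ℕ} {x : Fin (k + 2) → ℝ} (hx : ∀ i, 0 < x i) :
    nn (Lt a (k + 2)) x ≤ ∏ i, (1 - exp (-(x i / 2)))⁻¹ := by
  refine le_trans (le_of_eq ?_) (sum_half_le (a := a) (L := Lt a (k + 2)) hx Lt_le)
  unfold nn
  refine Finset.sum_congr rfl fun v _ => ?_
  congr 1
  ring

theorem x1_le' {k a : ℕ} {q z lg : ℝ} (hq1 : 1 ≤ q) (hlg0 : 0 ≤ lg)
    (hz1 : 1000 * ((k : ℝ) + 2 + 1) * (1 + lg) ≤ z) {x m c : Fin (k + 2) → ℝ}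
    (hx : ∀ i, 0 < x i) (hmean : ∀ i, mean (Lt a (k + 2)) x i = m i - c i / x i)
    (hnle : ∏ i, (1 - exp (-(x i / 2)))⁻¹ ≤ q ^ 2 * z ^ 2)
    (hc4 : c 1 ≤ 4 * q * z ^ 3)
    (hm1 : q ^ 2 * z ^ 16 / (8 * ((k : ℝ) + 3)) ≤ m 1) : x 1 ≤ 1 := by
  have e1 := H921.Z.xe (x := x) hx (L := Lt a (k + 2)) Lt_ne 1
  have e2 : x 1 * mean (Lt a (k + 2)) x 1 ≤ ∏ i, (1 - exp (-(x i / 2)))⁻¹ :=
    le_trans e1 (sum_half_le hx Lt_le)
  rw [hmean 1, mul_sub, mul_div_cancel₀ _ (hx 1).ne'] at e2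
  refine x1_le (h := (k : ℝ) + 2) (lg := lg) hq1 hlg0 (h_ge k) hz1 hnle hc4 ?_ ?_ (m1 := m 1)
  · have : (k : ℝ) + 2 + 1 = (k : ℝ) + 3 := by ring
    rw [this]
    exact hm1
  · linarith

theorem sum_nonneg' {k : ℕ} {x : Fin (k + 2) → ℝ} (σ : ℝ) (L' : Finset (Fin (k + 2) → ℕ))
    (hL' : ∀ v ∈ L', σ < dotp x v) :
    0 ≤ ∑ v ∈ L', exp (-dotp x v) / (1 - exp σ * exp (-dotp x v)) := by
  refine Finset.sum_nonneg fun v hv => ?_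
  have e1 : exp σ * exp (-dotp x v) < 1 := by
    rw [← exp_add, exp_lt_one_iff]
    linarith [hL' v hv]
  exact div_nonneg (exp_pos _).le (by linarith)

/-- truncation -/
theorem trunc {k a N : ℕ} {q z : ℝ} (hq1 : 1 ≤ q) (hlg0 : 0 ≤ log (a : ℝ))
    (hz1 : 1000 * ((k : ℝ) + 2 + 1) * (1 + log (a : ℝ)) ≤ z) {x : Fin (k + 2) → ℝ}
    (hx : ∀ i, 0 < x i) (hmono : Monotone x)
    (hnle : ∏ i, (1 - exp (-(x i / 2)))⁻¹ ≤ q ^ 2 * z ^ 2)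
    (hx11 : x 1 ≤ 1) (hN : q ^ 2 * z ^ 16 / 8 ≤ N) :
    exp (-(x 0 / 2) * ((N + 1 : ℕ) : ℝ) + (exp (x 0 / 2) - 1) * ∑ v ∈ Lt a (k + 2),
        exp (-dotp x v) / (1 - exp (x 0 / 2) * exp (-dotp x v))) ≤ 1 / 4 := by
  have hx0 := hx 0
  have hx01 : x 0 ≤ x 1 := hmono (by simp)
  have hS1 := s1 (a := a) (x := x) hx (L := Lt a (k + 2)) Lt_le 0 (J := fun _ => True)
    (fun v hv _ => by
      obtain ⟨j, hj⟩ := exists_ne_of_ne (Lt_ne v hv)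
      exact ⟨j, hmono (Fin.zero_le j), hj⟩) (σ := x 0 / 2) le_rfl
  rw [Finset.filter_true, hcast] at hS1
  have hτL : ∀ v ∈ Lt a (k + 2), x 0 / 2 < dotp x v := fun v hv => by
    have := dot_ge hx hmono v (Lt_ne v hv)
    linarith
  refine le_trans (exp_le_exp.2 ?_) exp_neg_two_le
  refine trunc_ineq (h := (k : ℝ) + 2) (lg := log (a : ℝ)) hq1 hlg0 (h_ge k) hz1 hnle hx0
    (n_bounds hx hmono).2.1 ?_ hS1 (sum_nonneg' _ _ hτL) ?_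
  · push_cast
    linarith
  · have := exp_sub_one_le (s := x 0 / 2) (by linarith) (by linarith)
    linarith

/-- the polynomial factors -/
theorem logP_le {k E a N : ℕ} (ha2 : 2 ≤ a) {z P : ℝ}
    (hz : (100 + 4 * ((E : ℝ) + ((k : ℝ) + 2))) * (1 + log (a : ℝ)) ≤ z)
    (hN2 : (N : ℝ) ≤ (a : ℝ) ^ 2) (hP : 0 < P) (hPE : P ≤ ((N * a + 1 : ℕ) : ℝ) ^ E) :
    log (2 * P * ((N * a + 1 : ℕ) : ℝ) ^ (k + 2)) + 38 ≤ z := by
  have haR : (2 : ℝ) ≤ a := by exact_mod_cast ha2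
  have hapos : (0 : ℝ) < a := by linarith
  have hlg0 : 0 ≤ log (a : ℝ) := log_nonneg (by linarith)
  have hk0 : (0 : ℝ) ≤ k := Nat.cast_nonneg k
  have hE0 : (0 : ℝ) ≤ E := Nat.cast_nonneg E
  have hB1 : (1 : ℝ) ≤ ((N * a + 1 : ℕ) : ℝ) := by exact_mod_cast Nat.succ_le_succ (Nat.zero_le _)
  have hBa : ((N * a + 1 : ℕ) : ℝ) ≤ (a : ℝ) ^ 4 := by
    push_cast
    have e1 : (N : ℝ) * a ≤ (a : ℝ) ^ 2 * a := mul_le_mul_of_nonneg_right hN2 hapos.le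
    have e2 : (a : ℝ) ^ 2 * a + 1 ≤ (a : ℝ) ^ 4 := by
      have e3 : (1 : ℝ) ≤ (a : ℝ) ^ 3 := one_le_pow₀ (by linarith)
      have e4 : (a : ℝ) ^ 4 = (a : ℝ) ^ 3 * a := by ring
      rw [e4]
      nlinarith
    linarith
  have hnW0 : (0 : ℝ) < ((N * a + 1 : ℕ) : ℝ) ^ (k + 2) := by positivity
  have e1 : 2 * P * ((N * a + 1 : ℕ) : ℝ) ^ (k + 2) ≤ 2 * ((N * a + 1 : ℕ) : ℝ) ^ (E + (k + 2)) := by
    have e0 := mul_le_mul_of_nonneg_right hPE hnW0.le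
    rw [← pow_add] at e0
    calc 2 * P * ((N * a + 1 : ℕ) : ℝ) ^ (k + 2)
        = 2 * (P * ((N * a + 1 : ℕ) : ℝ) ^ (k + 2)) := by rw [mul_assoc]
      _ ≤ 2 * ((N * a + 1 : ℕ) : ℝ) ^ (E + (k + 2)) :=
        mul_le_mul_of_nonneg_left e0 (by norm_num)
  have e2 : log (2 * P * ((N * a + 1 : ℕ) : ℝ) ^ (k + 2))
      ≤ log (2 * ((N * a + 1 : ℕ) : ℝ) ^ (E + (k + 2))) :=
    log_le_log (by positivity) e1
  have e3 : log (2 * ((N * a + 1 : ℕ) : ℝ) ^ (E + (k + 2)))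
      = log 2 + ((E + (k + 2) : ℕ) : ℝ) * log ((N * a + 1 : ℕ) : ℝ) := by
    rw [log_mul (by norm_num) (by positivity), log_pow]
  have e4 : log ((N * a + 1 : ℕ) : ℝ) ≤ 4 * log (a : ℝ) := by
    have := log_le_log (by positivity) hBa
    rw [log_pow] at this
    push_cast at this ⊢
    exact this
  have e5 : log (2 : ℝ) ≤ 1 := by
    have := log_two_lt_d9
    linarith
  have e6 : ((E + (k + 2) : ℕ) : ℝ) = (E : ℝ) + ((k : ℝ) + 2) := by push_cast; ring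
  rw [e3, e6] at e2
  have e7 : ((E : ℝ) + ((k : ℝ) + 2)) * log ((N * a + 1 : ℕ) : ℝ)
      ≤ ((E : ℝ) + ((k : ℝ) + 2)) * (4 * log (a : ℝ)) :=
    mul_le_mul_of_nonneg_left e4 (by positivity)
  have e8 : (100 + 4 * ((E : ℝ) + ((k : ℝ) + 2))) * (1 + log (a : ℝ))
      = 100 + 4 * ((E : ℝ) + ((k : ℝ) + 2)) + 100 * log (a : ℝ)
        + ((E : ℝ) + ((k : ℝ) + 2)) * (4 * log (a : ℝ)) := by ring
  linarith

theorem small {n B q z nnv : ℝ} (hq1 : 1 ≤ q) (hz0 : 1 ≤ z) (hn : nnv ≤ n)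
    (hnle : n ≤ q ^ 2 * z ^ 2) (hB : 0 < B) (hlogz : log B + 38 ≤ z) :
    B * exp (-(1 / (q * z) * (q * z ^ 2)) + 38 * (1 / (q * z)) ^ 2 * nnv) ≤ 1 := by
  have hq0 : 0 < q := by linarith
  have hz00 : 0 < z := by linarith
  have e1 : 1 / (q * z) * (q * z ^ 2) = z := by
    field_simp
  have e2 : 38 * (1 / (q * z)) ^ 2 * nnv ≤ 38 := by
    have e3 : (1 / (q * z)) ^ 2 * nnv ≤ (1 / (q * z)) ^ 2 * (q ^ 2 * z ^ 2) :=
      mul_le_mul_of_nonneg_left (hn.trans hnle) (by positivity)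
    have e4 : (1 / (q * z)) ^ 2 * (q ^ 2 * z ^ 2) = 1 := by
      field_simp
    linarith
  rw [e1]
  calc B * exp (-z + 38 * (1 / (q * z)) ^ 2 * nnv)
      = exp (log B + (-z + 38 * (1 / (q * z)) ^ 2 * nnv)) := by
        rw [exp_add (log B), exp_log hB]
    _ ≤ exp 0 := exp_le_exp.2 (by linarith)
    _ = 1 := exp_zero

/-- comparison -/
theorem compar {k a t : ℕ} {q z lgP : ℝ} (hq1 : 1 ≤ q) (hlg0 : 0 ≤ log (a : ℝ))
    (hz1 : 1000 * ((k : ℝ) + 2 + 1) * (1 + log (a : ℝ)) ≤ z) {x m c : Fin (k + 2) → ℝ}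
    (hx : ∀ i, 0 < x i) (hmono : Monotone x)
    (hnle : ∏ i, (1 - exp (-(x i / 2)))⁻¹ ≤ q ^ 2 * z ^ 2)
    (hx11 : x 1 ≤ 1) (ht : q ^ 2 * z ^ 16 / 2 ≤ t) (hc4 : ∀ i, c i ≤ 4 * q * z ^ 3)
    (hP : lgP ≤ z) (lam : Fin (k + 2) → ℕ)
    (hlam : dotp x lam - ∑ i, x i * m i ≤ x 1 * (q ^ 2 * z ^ 8))
    (J : (Fin (k + 2) → ℕ) → Prop) [DecidablePred J]
    (hJ : ∀ v, J v → ∃ j : Fin (k + 2), 1 ≤ j ∧ v j ≠ 0) :
    dotp x lam - ∑ i, x i * m i + ∑ i, c i + ((k + 2 : ℕ) : ℝ) * (q * z ^ 2) +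
      lgP + (exp (x 1 / 2) - 1) * ∑ v ∈ (Lt a (k + 2)).filter J,
        exp (-dotp x v) / (1 - exp (x 1 / 2) * exp (-dotp x v)) ≤ x 1 / 2 * t := by
  have hS2 := s1 (a := a) (x := x) hx (L := Lt a (k + 2)) Lt_le 1 (J := J)
    (fun v _ hJv => by
      obtain ⟨j, hj1, hj⟩ := hJ v hJv
      exact ⟨j, hmono hj1, hj⟩) (σ := x 1 / 2) le_rfl
  rw [hcast] at hS2
  have hx1 := hx 1
  have e1 := fin_ineq (t := (t : ℝ)) (lgP := lgP) (es := exp (x 1 / 2))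
    (h := (k : ℝ) + 2) (lg := log (a : ℝ)) hq1 hlg0 (h_ge k) hz1 hnle hx1
    (n_bounds hx hmono).2.2 ht hP hS2
    (sum_nonneg' _ _ fun v hv => by
      obtain ⟨j, hj1, hj⟩ := hJ v (Finset.mem_filter.1 hv).2
      exact jdot_gt hx hmono hj1 hj) (by
      have := exp_sub_one_le (s := x 1 / 2) (by linarith) (by linarith)
      linarith)
  have e2 : ∑ i, c i ≤ ((k : ℝ) + 2) * (4 * q * z ^ 3) := by
    calc ∑ i, c i ≤ ∑ _i : Fin (k + 2), (4 * q * z ^ 3) := Finset.sum_le_sum fun i _ => hc4 i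
      _ = ((k : ℝ) + 2) * (4 * q * z ^ 3) := by
        rw [Finset.sum_const, Finset.card_univ, Fintype.card_fin, nsmul_eq_mul, hcast]
  rw [hcast]
  linarith

/-- everything, in terms of `q = √a` and `z = a^(g/16)` -/
theorem anaqz {k E a N t : ℕ} (ha2 : 2 ≤ a) {q z C : ℝ} (hq1 : 1 ≤ q) (hqq : q ^ 2 = a)
    (hC : 1 ≤ C)
    (hnp : ∀ (a : ℕ) (x l : Fin (k + 2) → ℝ), 1 ≤ a → (∀ i, 0 < x i) →
    (∀ i, ∑ v ∈ Lt a (k + 2), (v i : ℝ) * gm (dt x v) ≤ l i) →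
    ∏ i, (1 - exp (-(x i / 2)))⁻¹ ≤ C * max (a : ℝ) (∏ i, max 1 (l i / a)))
    (hCz : C ≤ z) (hz1 : 1000 * ((k : ℝ) + 2 + 1) * (1 + log (a : ℝ)) ≤ z)
    (hzE : (100 + 4 * ((E : ℝ) + ((k : ℝ) + 2))) * (1 + log (a : ℝ)) ≤ z)
    (hN : q ^ 2 * z ^ 16 / 8 ≤ N) (hN2 : (N : ℝ) ≤ (a : ℝ) ^ 2) (ht : q ^ 2 * z ^ 16 / 2 ≤ t)
    (x m c : Fin (k + 2) → ℝ) (hx : ∀ i, 0 < x i) (hmono : Monotone x)
    (hmean : ∀ i, mean (Lt a (k + 2)) x i = m i - c i / x i) (hc0 : ∀ i, 0 ≤ c i)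
    (hc4 : ∀ i, c i ≤ 4 * q * z ^ 3)
    (hm1 : q ^ 2 * z ^ 16 / (8 * ((k : ℝ) + 3)) ≤ m 1)
    (hreg : ∏ i, max 1 (m i / a) ≤ q ^ 2 * z)
    (lam : Fin (k + 2) → ℕ) (hlam : dotp x lam - ∑ i, x i * m i ≤ x 1 * (q ^ 2 * z ^ 8))
    (J : (Fin (k + 2) → ℕ) → Prop) [DecidablePred J]
    (hJ : ∀ v, J v → ∃ j : Fin (k + 2), 1 ≤ j ∧ v j ≠ 0)
    (f : (Fin (k + 2) → ℕ) → ℝ) (P : ℝ) (hP : 0 < P) (hPE : P ≤ ((N * a + 1 : ℕ) : ℝ) ^ E)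
    (h1 : ∀ θ, f θ ≤ cnt (Lt a (k + 2)) N θ)
    (h2 : ∀ w, 0 < cnt (Lt a (k + 2)) N w → ∃ θ : Fin (k + 2) → ℕ,
        (∀ r : ℕ, ∑ i : Fin (k + 2), (if r ≤ (i : ℕ) then θ i else 0) ≤
          ∑ i : Fin (k + 2), (if r ≤ (i : ℕ) then w i else 0)) ∧
          (cnt (Lt a (k + 2)) N w : ℝ) ≤ P * f θ) :
    ∃ θ : Fin (k + 2) → ℕ, (∀ i, |x i * (m i - θ i) - c i| < q * z ^ 2) ∧
      ((NTs (Lt a (k + 2)) J lam t).ncard : ℝ) ≤ f θ ∧ x 1 ≤ 1 ∧ 2 ≤ a * z ^ 2 * x 0 := by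
  have haR : (2 : ℝ) ≤ a := by exact_mod_cast ha2
  have hlg0 : 0 ≤ log (a : ℝ) := log_nonneg (by linarith)
  have hk0 : (0 : ℝ) ≤ k := Nat.cast_nonneg k
  have hz3 : 3000 ≤ z := by
    have e1 : 1000 * ((k : ℝ) + 2 + 1) * 1 ≤ 1000 * ((k : ℝ) + 2 + 1) * (1 + log (a : ℝ)) :=
      mul_le_mul_of_nonneg_left (by linarith) (by positivity)
    linarith
  have hnle := n_le hC hnp (le_trans (by norm_num) ha2) hqq hCz hx hmean hc0 hreg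
  have hx11 := x1_le' hq1 hlg0 hz1 hx hmean hnle (hc4 1) hm1
  have hx0 := hx 0
  have hx1 := hx 1
  have hlogz := logP_le ha2 hzE hN2 hP hPE
  have hB : (0 : ℝ) < 2 * P * ((N * a + 1 : ℕ) : ℝ) ^ (k + 2) := by positivity
  have hqz : 0 < q * z := by
    have : 0 < q := by linarith
    have : 0 < z := by linarith
    positivity
  obtain ⟨θ, hθ1, hθ2⟩ := core_x (Lt a (k + 2)) Lt_ne x hx hmono m c hmean N f P hP h1 h2
    (1 / (q * z)) (q * z ^ 2) (by positivity) (by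
      rw [div_le_iff₀ hqz]
      nlinarith) (x 0 / 2) (by linarith)
    (fun v hv => by
      have := dot_ge hx hmono v (Lt_ne v hv)
      linarith)
    (trunc hq1 hlg0 hz1 hx hmono hnle hx11 hN) (((N * a + 1 : ℕ) : ℝ) ^ (k + 2)) (by positivity)
    (card_weights_le (Lt a (k + 2)) a N Lt_le)
    (small hq1 (by linarith) (nn_le_n hx) hnle hB hlogz) J (x 1 / 2) (by linarith)
    (fun v _ hv => by
      obtain ⟨j, hj1, hj⟩ := hJ v hv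
      exact jdot_gt hx hmono hj1 hj)
    lam t (compar hq1 hlg0 hz1 hx hmono hnle hx11 ht hc4 (by linarith) lam hlam J hJ)
  refine ⟨θ, hθ1, hθ2, hx11, ?_⟩
  have e1 := mul_le_mul_of_nonneg_right hnle hx0.le
  have e2 := (n_bounds hx hmono).2.1
  rw [hqq] at e1
  linarith

end Vale.Agent.P181.Z.H235
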