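import Mathlib

/-!
# P181, [Z]: the numbers of the analysis half
-/

set_option autoImplicit false

namespace Vale.Agent.P181.Z.H235

open Real

theorem ev_log (K : ℝ) (hK : 0 ≤ K) {s : ℝ} (hs : 0 < s) :
    ∃ a0 : ℕ, ∀ a : ℕ, a0 ≤ a → K * (1 + log a) ≤ (a : ℝ) ^ s := by
  have h2 : 0 < s / 2 := by linarith
  have ht := (tendsto_rpow_atTop h2).comp tendsto_natCast_atTop_atTop
  obtain ⟨a0, ha0⟩ := Filter.eventually_atTop.1
    (ht.eventually_ge_atTop (K * (1 + 1 / (s / 2))))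
  refine ⟨max a0 1, fun a ha => ?_⟩
  have h3 : K * (1 + 1 / (s / 2)) ≤ (a : ℝ) ^ (s / 2) := ha0 a (le_trans (le_max_left _ _) ha)
  have ha1 : (1 : ℝ) ≤ a := by exact_mod_cast le_trans (le_max_right _ _) ha
  have h4 : log a ≤ (a : ℝ) ^ (s / 2) / (s / 2) := log_le_rpow_div (by linarith) h2
  have h5 : (1 : ℝ) ≤ (a : ℝ) ^ (s / 2) := one_le_rpow ha1 h2.le
  have h6 : (a : ℝ) ^ s = (a : ℝ) ^ (s / 2) * (a : ℝ) ^ (s / 2) := by
    rw [← rpow_add (by linarith)]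
    congr 1
    ring
  have h7 : 1 + log a ≤ (1 + 1 / (s / 2)) * (a : ℝ) ^ (s / 2) := by
    have : (1 + 1 / (s / 2)) * (a : ℝ) ^ (s / 2)
        = (a : ℝ) ^ (s / 2) + (a : ℝ) ^ (s / 2) / (s / 2) := by ring
    rw [this]
    linarith
  calc K * (1 + log a) ≤ K * ((1 + 1 / (s / 2)) * (a : ℝ) ^ (s / 2)) :=
        mul_le_mul_of_nonneg_left h7 hK
    _ = K * (1 + 1 / (s / 2)) * (a : ℝ) ^ (s / 2) := by ring
    _ ≤ (a : ℝ) ^ (s / 2) * (a : ℝ) ^ (s / 2) :=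
        mul_le_mul_of_nonneg_right h3 (by linarith)
    _ = (a : ℝ) ^ s := h6.symm

theorem exp_sub_one_le {s : ℝ} (h0 : 0 ≤ s) (h1 : s ≤ 1 / 2) : exp s - 1 ≤ 2 * s := by
  have h2 := add_one_le_exp (-s)
  have h3 : exp s * exp (-s) = 1 := by rw [← exp_add]; simp
  have h4 := exp_pos s
  nlinarith [mul_le_mul_of_nonneg_left h2 h4.le]

/-- The final comparison. -/
theorem fin_ineq {q z lg h n x1 t lgP S es : ℝ} (hq : 1 ≤ q) (hlg : 0 ≤ lg) (hh : 2 ≤ h)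
    (hz : 1000 * (h + 1) * (1 + lg) ≤ z) (hn : n ≤ q ^ 2 * z ^ 2)
    (hx0 : 0 < x1) (h4 : 4 ≤ n * x1 ^ 2) (ht : q ^ 2 * z ^ 16 / 2 ≤ t) (hP : lgP ≤ z)
    (hS : S ≤ n * (1 + 2 * h * (1 + lg))) (hS0 : 0 ≤ S) (hes : es - 1 ≤ x1) :
    x1 * (q ^ 2 * z ^ 8) + h * (4 * q * z ^ 3) + h * (q * z ^ 2) + lgP + (es - 1) * S
      ≤ x1 / 2 * t := by
  have hz1 : 1000 * (h + 1) ≤ z := by nlinarith
  have hz3 : 3000 ≤ z := by linarith
  have hzh : 1 + 2 * h * (1 + lg) ≤ z := by nlinarith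
  have hz0 : 0 < z := by linarith
  have hq0 : 0 < q := by linarith
  have e1 : 2 ≤ q * z * x1 := by
    by_contra hc
    push Not at hc
    have h5 : (q * z * x1) ^ 2 < 2 ^ 2 := by
      apply pow_lt_pow_left₀ hc (by positivity) (by norm_num)
    have h6 : n * x1 ^ 2 ≤ q ^ 2 * z ^ 2 * x1 ^ 2 := mul_le_mul_of_nonneg_right hn (by positivity)
    nlinarith
  have e2 : (es - 1) * S ≤ x1 * (q ^ 2 * z ^ 3) := by
    have h5 : S ≤ q ^ 2 * z ^ 2 * z := by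
      refine hS.trans ?_
      have h7 : 0 ≤ 1 + 2 * h * (1 + lg) := by positivity
      exact mul_le_mul hn hzh h7 (by positivity)
    calc (es - 1) * S ≤ x1 * S := mul_le_mul_of_nonneg_right hes hS0
      _ ≤ x1 * (q ^ 2 * z ^ 2 * z) := mul_le_mul_of_nonneg_left h5 hx0.le
      _ = _ := by ring
  have e3 : x1 * (q ^ 2 * z ^ 16) / 4 ≤ x1 / 2 * t := by
    have := mul_le_mul_of_nonneg_left ht (by positivity : 0 ≤ x1 / 2)
    linarith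
  set Q := x1 * (q ^ 2 * z ^ 3) with hQ
  have hQ0 : 0 < Q := by positivity
  have e4 : x1 * (q ^ 2 * z ^ 8) = Q * z ^ 5 := by
    rw [hQ]
    ring
  have e5 : h * (4 * q * z ^ 3) + h * (q * z ^ 2) + lgP ≤ 2 * (q * z ^ 4) := by
    have h5 : h * (4 * q * z ^ 3) + h * (q * z ^ 2) ≤ q * z ^ 4 := by
      have h7 : z ^ 2 ≤ z ^ 3 := pow_le_pow_right₀ (by linarith) (by norm_num)
      have h8 : h * (q * z ^ 2) ≤ h * (q * z ^ 3) := by gcongr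
      have h9 : 5 * h * (q * z ^ 3) ≤ z * (q * z ^ 3) := by
        have : 5 * h ≤ z := by linarith
        gcongr
      calc h * (4 * q * z ^ 3) + h * (q * z ^ 2) ≤ 5 * h * (q * z ^ 3) := by linarith
        _ ≤ z * (q * z ^ 3) := h9
        _ = q * z ^ 4 := by ring
    have h6 : z ≤ q * z ^ 4 := by
      have h7 : z ≤ z ^ 4 := le_self_pow₀ (by linarith) (by norm_num)
      have h8 : 1 * z ^ 4 ≤ q * z ^ 4 := by gcongr
      linarith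
    linarith
  have e6 : 2 * (q * z ^ 4) ≤ Q * z ^ 2 := by
    have h5 := mul_le_mul_of_nonneg_right e1 (by positivity : 0 ≤ q * z ^ 4)
    calc 2 * (q * z ^ 4) ≤ q * z * x1 * (q * z ^ 4) := h5
      _ = Q * z ^ 2 := by rw [hQ]; ring
  have e7 : x1 * (q ^ 2 * z ^ 16) / 4 = Q * z ^ 13 / 4 := by rw [hQ]; ring
  have e8 : z ^ 5 + 1 + z ^ 2 ≤ z ^ 13 / 4 := by
    have h5 : z ^ 13 = z ^ 5 * z ^ 8 := by ring
    have h6 : (3000 : ℝ) ^ 8 ≤ z ^ 8 := pow_le_pow_left₀ (by norm_num) hz3 8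
    have h7 : (1 : ℝ) ≤ z ^ 5 := one_le_pow₀ (by linarith)
    have h8 : (12 : ℝ) ≤ z ^ 8 := by linarith [show (12 : ℝ) ≤ 3000 ^ 8 by norm_num]
    have h9 : z ^ 2 ≤ z ^ 5 := pow_le_pow_right₀ (by linarith) (by norm_num)
    rw [h5]
    have h10 : z ^ 5 * 12 ≤ z ^ 5 * z ^ 8 := mul_le_mul_of_nonneg_left h8 (by linarith)
    linarith
  have e9 : Q * (z ^ 5 + 1 + z ^ 2) ≤ Q * (z ^ 13 / 4) := mul_le_mul_of_nonneg_left e8 hQ0.le
  have e10 : Q * (z ^ 5 + 1 + z ^ 2) = Q * z ^ 5 + Q + Q * z ^ 2 := by ring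
  have e11 : Q * (z ^ 13 / 4) = Q * z ^ 13 / 4 := by ring
  linarith

/-- The truncation. -/
theorem trunc_ineq {q z lg h n x0 N1 S et : ℝ} (hq : 1 ≤ q) (hlg : 0 ≤ lg) (hh : 2 ≤ h)
    (hz : 1000 * (h + 1) * (1 + lg) ≤ z) (hn : n ≤ q ^ 2 * z ^ 2)
    (hx0 : 0 < x0) (h2 : 2 ≤ n * x0) (hN : q ^ 2 * z ^ 16 / 8 ≤ N1)
    (hS : S ≤ n * (1 + 2 * h * (1 + lg))) (hS0 : 0 ≤ S) (het : et - 1 ≤ x0) :
    -(x0 / 2) * N1 + (et - 1) * S ≤ -2 := by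
  have hz1 : 1000 * (h + 1) ≤ z := by nlinarith
  have hz3 : 3000 ≤ z := by linarith
  have hzh : 1 + 2 * h * (1 + lg) ≤ z := by nlinarith
  have hz0 : 0 < z := by linarith
  have hq0 : 0 < q := by linarith
  have e2 : (et - 1) * S ≤ x0 * (q ^ 2 * z ^ 3) := by
    have h5 : S ≤ q ^ 2 * z ^ 2 * z := by
      refine hS.trans ?_
      have h7 : 0 ≤ 1 + 2 * h * (1 + lg) := by positivity
      exact mul_le_mul hn hzh h7 (by positivity)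
    calc (et - 1) * S ≤ x0 * S := mul_le_mul_of_nonneg_right het hS0
      _ ≤ x0 * (q ^ 2 * z ^ 2 * z) := mul_le_mul_of_nonneg_left h5 hx0.le
      _ = _ := by ring
  have e3 : x0 * (q ^ 2 * z ^ 16) / 16 ≤ x0 / 2 * N1 := by
    have := mul_le_mul_of_nonneg_left hN (by positivity : 0 ≤ x0 / 2)
    linarith
  set Q := x0 * (q ^ 2 * z ^ 2) with hQ
  have hQ2 : 2 ≤ Q := by
    have : n * x0 ≤ q ^ 2 * z ^ 2 * x0 := mul_le_mul_of_nonneg_right hn hx0.le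
    rw [hQ]
    linarith
  have e7 : x0 * (q ^ 2 * z ^ 16) / 16 = Q * z ^ 14 / 16 := by rw [hQ]; ring
  have e8 : x0 * (q ^ 2 * z ^ 3) = Q * z := by rw [hQ]; ring
  have e9 : 1 + z ≤ z ^ 14 / 16 := by
    have h5 : z ^ 14 = z * z ^ 13 := by ring
    have h6 : (3000 : ℝ) ^ 13 ≤ z ^ 13 := pow_le_pow_left₀ (by norm_num) hz3 13
    have h8 : (32 : ℝ) ≤ z ^ 13 := by linarith [show (32 : ℝ) ≤ 3000 ^ 13 by norm_num]
    rw [h5]
    nlinarith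
  have e10 : Q * (1 + z) ≤ Q * (z ^ 14 / 16) := mul_le_mul_of_nonneg_left e9 (by linarith)
  nlinarith

theorem exp_neg_two_le : exp (-2) ≤ 1 / 4 := by
  have h1 : exp (-2) = (exp 2)⁻¹ := exp_neg 2
  have h2 : (4 : ℝ) ≤ exp 2 := by
    have h3 : exp 2 = exp 1 * exp 1 := by rw [← exp_add]; norm_num
    have h4 := exp_one_gt_d9
    rw [h3]
    nlinarith
  rw [h1, inv_le_comm₀ (exp_pos 2) (by norm_num)]
  linarith

/-- `x_1 ≤ 1`. -/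
theorem x1_le {q z lg h n x1 m1 c1 : ℝ} (hq : 1 ≤ q) (hlg : 0 ≤ lg) (hh : 2 ≤ h)
    (hz : 1000 * (h + 1) * (1 + lg) ≤ z) (hn : n ≤ q ^ 2 * z ^ 2)
    (hc : c1 ≤ 4 * q * z ^ 3) (hm : q ^ 2 * z ^ 16 / (8 * (h + 1)) ≤ m1)
    (hx : x1 * m1 ≤ n + c1) : x1 ≤ 1 := by
  have hz1 : 1000 * (h + 1) ≤ z := by nlinarith
  have hz3 : 3000 ≤ z := by linarith
  have hz0 : 0 < z := by linarith
  have hq0 : 0 < q := by linarith
  have h1 : q ^ 2 * z ^ 16 / (8 * (h + 1)) > 0 := by positivity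
  by_contra hc1
  push Not at hc1
  have h2 : m1 < x1 * m1 := by nlinarith
  have h3 : q ^ 2 * z ^ 15 ≤ q ^ 2 * z ^ 16 / (8 * (h + 1)) := by
    rw [le_div_iff₀ (by positivity)]
    have h4 : 8 * (h + 1) ≤ z := by linarith
    calc q ^ 2 * z ^ 15 * (8 * (h + 1)) ≤ q ^ 2 * z ^ 15 * z := by gcongr
      _ = q ^ 2 * z ^ 16 := by ring
  have h5 : n + c1 ≤ 5 * (q ^ 2 * z ^ 3) := by
    have h6 : q ≤ q ^ 2 := by nlinarith
    have h7 : q * z ^ 3 ≤ q ^ 2 * z ^ 3 := by gcongr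
    have h8 : z ^ 2 ≤ z ^ 3 := pow_le_pow_right₀ (by linarith) (by norm_num)
    have h9 : q ^ 2 * z ^ 2 ≤ q ^ 2 * z ^ 3 := by gcongr
    linarith
  have h6 : 5 * (q ^ 2 * z ^ 3) ≤ q ^ 2 * z ^ 15 := by
    have h7 : (3000 : ℝ) ^ 12 ≤ z ^ 12 := pow_le_pow_left₀ (by norm_num) hz3 12
    have h8 : (5 : ℝ) ≤ z ^ 12 := by linarith [show (5 : ℝ) ≤ 3000 ^ 12 by norm_num]
    calc 5 * (q ^ 2 * z ^ 3) ≤ z ^ 12 * (q ^ 2 * z ^ 3) := by gcongr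
      _ = q ^ 2 * z ^ 15 := by ring
  linarith

end Vale.Agent.P181.Z.H235
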